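import Vale.Agent.P237.All.Finite.W.Mid.M8
import Vale.Agent.P237.All.Finite.W.Mid.M9
import Vale.Agent.P237.All.Finite.W.Mid.M10
import Vale.Agent.P237.All.Finite.W.Mid.M11
import Vale.Agent.P237.All.Finite.W.Mid.M12
import Vale.Agent.P237.All.Finite.W.Mid.M13
import Vale.Agent.P237.All.Finite.W.Mid.M14
import Vale.Agent.P237.All.Finite.W.Mid.M15
import Vale.Agent.P237.All.Finite.W.Mid.M16
import Vale.Agent.P237.All.Finite.W.Mid.M17
import Vale.Agent.P237.All.Finite.W.Mid.M18
import Vale.Agent.P237.All.Finite.W.Mid.M19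
import Vale.Agent.P237.All.Finite.W.Mid.M20
import Vale.Agent.P237.All.Finite.W.Mid.M21
import Vale.Agent.P237.All.Finite.W.Mid.M22
import Vale.Agent.P237.All.Finite.W.Mid.M23
import Vale.Agent.P237.All.Finite.W.Mid.M24
import Vale.Agent.P237.All.Finite.W.Mid.M25
import Vale.Agent.P237.All.Finite.W.Mid.M26
import Vale.Agent.P237.All.Finite.W.Mid.M27
import Vale.Agent.P237.All.Finite.W.Mid.M28
import Vale.Agent.P237.All.Finite.W.Mid.M29
import Vale.Agent.P237.All.Finite.W.Mid.M30
import Vale.Agent.P237.All.Finite.W.Mid.M31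
import Vale.Agent.P237.All.Finite.W.Mid.M32
import Vale.Agent.P237.All.Finite.W.Mid.M33
import Vale.Agent.P237.All.Finite.W.Mid.M34
import Vale.Agent.P237.All.Finite.W.Mid.M35
import Vale.Agent.P237.All.Finite.W.Mid.M36
import Vale.Agent.P237.All.Finite.W.Mid.M37
import Vale.Agent.P237.All.Finite.W.Mid.M38
import Vale.Agent.P237.All.Finite.W.Mid.M39
import Vale.Agent.P237.All.Finite.W.Mid.M40
import Vale.Agent.P237.All.Finite.W.Mid.M41
import Vale.Agent.P237.All.Finite.W.Mid.M42
import Vale.Agent.P237.All.Finite.W.Mid.M43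
import Vale.Agent.P237.All.Finite.W.Mid.M44

/-! P237, finitely many dimensions: the bound for the excess in [5/2, 17) and `m = 8, ..., 44`. -/

namespace Vale.Agent.P237.All.Finite.W

open Data

/-- The bound on `[5/2, 17)` for `7 ≤ p ≤ 43`. -/
theorem rangeOk_mid {p : ℕ} (hp : 7 ≤ p) (hp' : p ≤ 43) : RangeOk p (5/2) 17 := by
  interval_cases p
  · exact rangeOk_mid8
  · exact rangeOk_mid9
  · exact rangeOk_mid10
  · exact rangeOk_mid11
  · exact rangeOk_mid12
  · exact rangeOk_mid13
  · exact rangeOk_mid14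
  · exact rangeOk_mid15
  · exact rangeOk_mid16
  · exact rangeOk_mid17
  · exact rangeOk_mid18
  · exact rangeOk_mid19
  · exact rangeOk_mid20
  · exact rangeOk_mid21
  · exact rangeOk_mid22
  · exact rangeOk_mid23
  · exact rangeOk_mid24
  · exact rangeOk_mid25
  · exact rangeOk_mid26
  · exact rangeOk_mid27
  · exact rangeOk_mid28
  · exact rangeOk_mid29
  · exact rangeOk_mid30
  · exact rangeOk_mid31
  · exact rangeOk_mid32
  · exact rangeOk_mid33
  · exact rangeOk_mid34
  · exact rangeOk_mid35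
  · exact rangeOk_mid36
  · exact rangeOk_mid37
  · exact rangeOk_mid38
  · exact rangeOk_mid39
  · exact rangeOk_mid40
  · exact rangeOk_mid41
  · exact rangeOk_mid42
  · exact rangeOk_mid43
  · exact rangeOk_mid44

end Vale.Agent.P237.All.Finite.W
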