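import Vale.Agent.P237.All.Finite.Sound
import Mathlib.Analysis.Convex.SpecificFunctions.Deriv

/-!
P237, finitely many dimensions: in the coordinate `w = r ^ (-p)` the bracket is at most a quadratic; the
quadratic below `R₁ + (1 - c) R₂`, the chord of the ridge and an explicit bound on the central mass.
-/

noncomputable section

open MeasureTheory Set Real intervalIntegral

namespace Vale.Agent.P237.All.Finite.W

open Transport Transport.Finite

/-- A function with antitone second derivative that touches zero and is nonnegative at the right end. -/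
theorem nonneg_of_touch {G G1 G2 : ℝ → ℝ} {a b w0 x : ℝ}
    (h1 : ∀ w ∈ Icc a b, HasDerivAt G (G1 w) w) (h2 : ∀ w ∈ Icc a b, HasDerivAt G1 (G2 w) w)
    (hd : AntitoneOn G2 (Icc a b)) (hw : w0 ∈ Ico a b) (e0 : G w0 = 0) (e1 : G1 w0 = 0)
    (hb : 0 ≤ G b) (hx : x ∈ Icc a b) : 0 ≤ G x := by
  have mvt : ∀ (f f' : ℝ → ℝ), (∀ w ∈ Icc a b, HasDerivAt f (f' w) w) → ∀ u v, a ≤ u → u < v → v ≤ b →
      ∃ ξ ∈ Ioo u v, f v - f u = f' ξ * (v - u) := fun f f' hf u v hu huv hv => by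
    obtain ⟨ξ, hξ, e⟩ := exists_hasDerivAt_eq_slope f f' huv
      (fun w hw => (hf w ⟨hu.trans hw.1, hw.2.trans hv⟩).continuousAt.continuousWithinAt)
      (fun w hw => hf w ⟨hu.trans hw.1.le, hw.2.le.trans hv⟩)
    exact ⟨ξ, hξ, by rw [e, div_mul_cancel₀ _ (sub_pos.2 huv).ne']⟩
  by_contra hn
  push Not at hn
  rcases lt_trichotomy x w0 with hlt | rfl | hgt
  · obtain ⟨ξ, hξ, e⟩ := mvt G G1 h1 x w0 hx.1 hlt hw.2.le
    rw [e0] at e
    have hξ0 : 0 < G1 ξ := pos_of_mul_pos_left (by linarith) (sub_pos.2 hlt).le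
    obtain ⟨η, hη, e'⟩ := mvt G1 G2 h2 ξ w0 (hx.1.trans hξ.1.le) hξ.2 hw.2.le
    rw [e1] at e'
    have hη0 : G2 η < 0 := by
      by_contra h
      push Not at h
      nlinarith [mul_nonneg h (sub_pos.2 hξ.2).le]
    obtain ⟨ζ, hζ, e2⟩ := mvt G G1 h1 w0 b hw.1 hw.2 le_rfl
    obtain ⟨θ, hθ, e3⟩ := mvt G1 G2 h2 w0 ζ hw.1 hζ.1 hζ.2.le
    have hθ0 : G2 θ ≤ G2 η := hd ⟨hx.1.trans (hξ.1.le.trans hη.1.le), hη.2.le.trans hw.2.le⟩
      ⟨hw.1.trans hθ.1.le, hθ.2.le.trans hζ.2.le⟩ (hη.2.le.trans hθ.1.le)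
    have : G1 ζ < 0 := by nlinarith [sub_pos.2 hζ.1]
    nlinarith [sub_pos.2 hw.2]
  · linarith
  · obtain ⟨ξ, hξ, e⟩ := mvt G G1 h1 w0 x hw.1 hgt hx.2
    rw [e0] at e
    have hξ0 : G1 ξ < 0 := by
      by_contra h
      push Not at h
      nlinarith [mul_nonneg h (sub_pos.2 hgt).le]
    obtain ⟨η, hη, e'⟩ := mvt G1 G2 h2 w0 ξ hw.1 hξ.1 (hξ.2.le.trans hx.2)
    have hη0 : G2 η < 0 := by
      by_contra h
      push Not at h
      nlinarith [mul_nonneg h (sub_pos.2 hξ.1).le]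
    rcases eq_or_lt_of_le hx.2 with rfl | hxb
    · linarith
    obtain ⟨ζ, hζ, e2⟩ := mvt G G1 h1 x b hx.1 hxb le_rfl
    obtain ⟨θ, hθ, e3⟩ := mvt G1 G2 h2 ξ ζ (hw.1.trans hξ.1.le) (hξ.2.trans hζ.1) hζ.2.le
    have hθ0 : G2 θ ≤ G2 η := hd ⟨hw.1.trans hη.1.le, hη.2.le.trans (hξ.2.le.trans hx.2)⟩
      ⟨(hw.1.trans hξ.1.le).trans hθ.1.le, hθ.2.le.trans hζ.2.le⟩ (hη.2.le.trans hθ.1.le)
    have : G1 ζ < 0 := by nlinarith [sub_pos.2 (hξ.2.trans hζ.1)]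
    nlinarith [sub_pos.2 hxb]

/-- The powers of `w` at `w r ^ p = 1`. -/
theorem rpow_of_pow {p : ℕ} (hp : 0 < p) {r w : ℝ} (hr : 0 < r) (h : r ^ p * w = 1) :
    w ^ (-(p : ℝ)⁻¹) = r ∧ w ^ (-(p : ℝ)⁻¹ - 1) = r ^ (p + 1) ∧
      w ^ (-(p : ℝ)⁻¹ - 1 - 1) = r ^ (2 * p + 1) := by
  have hp' : (p : ℝ) ≠ 0 := by exact_mod_cast hp.ne'
  have hw : w = (r ^ p)⁻¹ := eq_inv_of_mul_eq_one_right h
  have hw0 : 0 < w := by rw [hw]; positivity
  have e0 : w ^ (-(p : ℝ)⁻¹) = r := by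
    rw [hw, Real.inv_rpow (by positivity), Real.rpow_neg (by positivity), inv_inv,
      Real.pow_rpow_inv_natCast hr.le hp.ne']
  have e1 : ∀ β : ℝ, w ^ (β - 1) = w ^ β * r ^ p := fun β => by
    rw [Real.rpow_sub_one hw0.ne', hw, div_inv_eq_mul]
  refine ⟨e0, ?_, ?_⟩
  · rw [e1, e0, pow_succ']
  · rw [e1, e1, e0, show 2 * p + 1 = p + p + 1 by omega, pow_succ', pow_add]; ring

/-- A function with nonnegative second derivative that touches zero is nonnegative. -/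
theorem nonneg_of_convex {G G1 G2 : ℝ → ℝ} {w0 x : ℝ} (h1 : ∀ w : ℝ, 0 < w → HasDerivAt G (G1 w) w)
    (h2 : ∀ w : ℝ, 0 < w → HasDerivAt G1 (G2 w) w) (hd : ∀ w : ℝ, 0 < w → 0 ≤ G2 w) (hw : 0 < w0)
    (e0 : G w0 = 0) (e1 : G1 w0 = 0) (hx : 0 < x) : 0 ≤ G x := by
  have hm : MonotoneOn G1 (Ioi 0) := monotoneOn_of_hasDerivWithinAt_nonneg (convex_Ioi 0)
    (f' := G2) (fun w hw => (h2 w hw).continuousAt.continuousWithinAt)
    (fun w hw => (h2 w (interior_subset hw)).hasDerivWithinAt) fun w hw => hd w (interior_subset hw)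
  rcases lt_trichotomy x w0 with h | rfl | h
  · obtain ⟨ξ, hξ, e⟩ := exists_hasDerivAt_eq_slope G G1 h
      (fun w hw => (h1 w (hx.trans_le hw.1)).continuousAt.continuousWithinAt)
      (fun w hw => h1 w (hx.trans hw.1))
    rw [eq_div_iff (sub_pos.2 h).ne', e0] at e
    have := hm (hx.trans hξ.1) hw hξ.2.le
    nlinarith [sub_pos.2 h]
  · exact e0.ge
  · obtain ⟨ξ, hξ, e⟩ := exists_hasDerivAt_eq_slope G G1 h
      (fun w hw' => (h1 w (hw.trans_le hw'.1)).continuousAt.continuousWithinAt)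
      (fun w hw' => h1 w (hw.trans hw'.1))
    rw [eq_div_iff (sub_pos.2 h).ne', e0] at e
    have := hm hw (hw.trans hξ.1) hξ.1.le
    nlinarith [sub_pos.2 h]

/-- The least value of `(2 p + 1) r ^ (3 p + 1) - C r ^ (2 p + 1)`, by Bernoulli. -/
theorem bernoulli_pow {p : ℕ} {r rs C : ℝ} (hr : 0 ≤ r) (hrs : 0 < rs) (hC : C ≤ (3 * p + 1) * rs ^ p) :
    -(p : ℝ) * rs ^ (3 * p + 1) ≤ (2 * p + 1) * r ^ (3 * p + 1) - C * r ^ (2 * p + 1) := by
  set x := r / rs with hx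
  have hx0 : 0 ≤ x := div_nonneg hr hrs.le
  have hb := one_add_mul_self_le_rpow_one_add (s := x ^ (2 * p + 1) - 1)
    (by linarith [pow_nonneg hx0 (2 * p + 1)]) (p := ((3 * p + 1 : ℕ) : ℝ) / ((2 * p + 1 : ℕ) : ℝ))
    (by rw [le_div_iff₀ (by positivity)]; push_cast; linarith [(Nat.cast_nonneg p : (0 : ℝ) ≤ p)])
  rw [add_sub_cancel, ← Real.rpow_natCast x (2 * p + 1), ← Real.rpow_mul hx0,
    mul_div_cancel₀ _ (by positivity), Real.rpow_natCast, Real.rpow_natCast] at hb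
  have er : r = x * rs := (div_mul_cancel₀ r hrs.ne').symm
  push_cast at hb
  rw [div_mul_eq_mul_div, ← sub_nonneg] at hb
  have key : 0 ≤ (2 * (p : ℝ) + 1) * x ^ (3 * p + 1) - (3 * p + 1) * x ^ (2 * p + 1) + p := by
    have := mul_nonneg (by positivity : (0 : ℝ) ≤ 2 * (p : ℝ) + 1) hb
    field_simp at this
    linarith
  have h1 := mul_le_mul_of_nonneg_right hC (pow_nonneg hr (2 * p + 1))
  have e3 : rs ^ (3 * p + 1) = rs ^ p * rs ^ (2 * p + 1) := by rw [← pow_add]; congr 1; omega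
  have h2 := mul_nonneg (pow_nonneg hrs.le (3 * p + 1)) key
  rw [er] at h1 ⊢
  simp only [mul_pow] at h1 ⊢
  linear_combination h1 + h2 + ((3 * (p : ℝ) + 1) * x ^ (2 * p + 1)) * e3

/-- A quadratic below `R₁ + (1 - c) R₂` on a range of `w = r ^ (-p)`: tangent at `w₀`, below at the end. -/
theorem quad_le_F {p : ℕ} (hp : 0 < p) {c K r0 re w0 we d1 δ sl q0 q1 q2 : ℝ} (hr0 : 0 < r0)
    (hre : 0 < re) (hw0 : r0 ^ p * w0 = 1) (hwe : re ^ p * we = 1) (hlt : w0 < we)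
    (hd1 : p * d1 = -((p : ℝ) + 1) * r0 ^ (2 * p + 1) + (1 - c) * p + (1 + c * p) * r0 ^ (p + 1))
    (h2 : q2 ≤ K) (h1 : q1 ≤ d1 - 2 * K * (w0 - (1 + sl)))
    (h0 : q0 ≤ r0 ^ (p + 1) + (1 - c) * w0 - (1 + c * p) * r0 + ((p : ℝ) - (1 - c) * (p + 1)) -
      d1 * (w0 - (1 + sl)) + K * (w0 - (1 + sl)) ^ 2)
    (hK : ((1 + c * p) * we ≤ 3 * p + 1 ∧
        r0 ^ (p + 1) + (1 - c) * w0 - (1 + c * p) * r0 + d1 * (we - w0) + K * (we - w0) ^ 2 ≤
          re ^ (p + 1) + (1 - c) * we - (1 + c * p) * re) ∨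
      (∃ rs : ℝ, 0 < rs ∧ 1 + c * p ≤ (3 * p + 1) * rs ^ p ∧ 2 * K * p ≤ -((p : ℝ) + 1) * rs ^ (3 * p + 1)))
    (hd : 0 < 1 + δ) (hx : 0 ≤ ((1 + δ) ^ p)⁻¹ - (1 + sl)) (hxe : ((1 + δ) ^ p)⁻¹ ≤ we) :
    q0 + q1 * (((1 + δ) ^ p)⁻¹ - (1 + sl)) + q2 * (((1 + δ) ^ p)⁻¹ - (1 + sl)) ^ 2 ≤
      (1 + δ) ^ (p + 1) - 1 - ((p : ℝ) + 1) * δ + (1 - c) * (((1 + δ) ^ p)⁻¹ - 1 + p * δ) := by
  have hp' : (0 : ℝ) < p := by exact_mod_cast hp
  set a : ℝ := (p : ℝ)⁻¹ with ha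
  have hap : (p : ℝ) * a = 1 := mul_inv_cancel₀ hp'.ne'
  set w := ((1 + δ) ^ p)⁻¹ with hw
  set x0 := w0 - (1 + sl) with hx0
  have hww : (1 + δ) ^ p * w = 1 := mul_inv_cancel₀ (pow_pos hd p).ne'
  have hwp : 0 < w := by positivity
  have hw0p : 0 < w0 := pos_of_mul_pos_right (by rw [hw0]; norm_num) (pow_pos hr0 p).le
  obtain ⟨ew, ew1, -⟩ := rpow_of_pow hp hd hww
  obtain ⟨e00, e01, e02⟩ := rpow_of_pow hp hr0 hw0
  obtain ⟨ee, ee1, -⟩ := rpow_of_pow hp hre hwe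
  rw [← ha] at ew ew1 e00 e01 e02 ee ee1
  set F0 := r0 ^ (p + 1) + (1 - c) * w0 - (1 + c * p) * r0 with hF0
  set G : ℝ → ℝ := fun v => v ^ (-a - 1) + (1 - c) * v - (1 + c * p) * v ^ (-a) -
    (F0 + d1 * (v - w0) + K * (v - w0) ^ 2) with hG
  set G1 : ℝ → ℝ := fun v => (-a - 1) * v ^ (-a - 1 - 1) + (1 - c) - (1 + c * p) * (-a * v ^ (-a - 1)) -
    (d1 + K * (2 * (v - w0))) with hG1
  set G2 : ℝ → ℝ := fun v => (-a - 1) * ((-a - 1 - 1) * v ^ (-a - 1 - 1 - 1)) -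
    (1 + c * p) * (-a * ((-a - 1) * v ^ (-a - 1 - 1))) - K * 2 with hG2
  set lo := min w w0 with hlo
  have hlo0 : 0 < lo := lt_min hwp hw0p
  have pos : ∀ v ∈ Icc lo we, 0 < v := fun v hv => hlo0.trans_le hv.1
  have hG1d : ∀ v : ℝ, 0 < v → HasDerivAt G (G1 v) v := by
    intro v hv
    have hv' := hv.ne'
    refine ((((Real.hasDerivAt_rpow_const (Or.inl hv')).add ((hasDerivAt_id v).const_mul (1 - c))).sub
      ((Real.hasDerivAt_rpow_const (Or.inl hv')).const_mul (1 + c * p))).sub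
      ((((hasDerivAt_id v).sub_const w0).const_mul d1 |>.const_add F0).add
        ((((hasDerivAt_id v).sub_const w0).pow 2).const_mul K))).congr_deriv ?_
    simp only [hG1, id]; push_cast; ring
  have hG2d : ∀ v : ℝ, 0 < v → HasDerivAt G1 (G2 v) v := by
    intro v hv
    have hv' := hv.ne'
    refine (((((Real.hasDerivAt_rpow_const (Or.inl hv')).const_mul (-a - 1)).add_const (1 - c)).sub
      (((Real.hasDerivAt_rpow_const (Or.inl hv')).const_mul (-a)).const_mul (1 + c * p))).sub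
      ((((hasDerivAt_id v).sub_const w0).const_mul 2 |>.const_mul K).const_add d1)).congr_deriv ?_
    simp only [hG2]; ring
  have h0' : G w0 = 0 := by
    simp only [hG, e00, e01, hF0]; ring
  have h1' : G1 w0 = 0 := by
    simp only [hG1, e01, e02]
    have : d1 = (-a - 1) * r0 ^ (2 * p + 1) + (1 - c) - (1 + c * p) * (-a * r0 ^ (p + 1)) := by
      refine mul_left_cancel₀ hp'.ne' ?_
      rw [hd1]
      linear_combination (r0 ^ (2 * p + 1) - (1 + c * p) * r0 ^ (p + 1)) * hap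
    linarith
  have key : 0 ≤ G w := by
    rcases hK with ⟨hcv, he⟩ | ⟨rs, hrs, hc1, hc2⟩
    · refine nonneg_of_touch (G1 := G1) (G2 := G2) (a := lo) (b := we) (w0 := w0)
        (fun v hv => hG1d v (pos v hv)) (fun v hv => hG2d v (pos v hv)) ?_
        ⟨min_le_right _ _, hlt⟩ h0' h1' ?_ ⟨min_le_left _ _, hxe⟩
      · refine antitoneOn_of_hasDerivWithinAt_nonpos (convex_Icc lo we)
          (f' := fun v => (-a - 1) * ((-a - 1 - 1) * ((-a - 1 - 1 - 1) * v ^ (-a - 1 - 1 - 1 - 1))) -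
            (1 + c * p) * (-a * ((-a - 1) * ((-a - 1 - 1) * v ^ (-a - 1 - 1 - 1))))) ?_ ?_ ?_
        · intro v hv
          exact (((((Real.continuousAt_rpow_const _ _ (Or.inl (pos v hv).ne')).const_mul _).const_mul _).sub
            ((((Real.continuousAt_rpow_const _ _ (Or.inl (pos v hv).ne')).const_mul _).const_mul _).const_mul _)).sub
            continuousAt_const).continuousWithinAt
        · intro v hv
          have hv' := (pos v (interior_subset hv)).ne'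
          exact (((((Real.hasDerivAt_rpow_const (Or.inl hv')).const_mul _).const_mul _).sub
            ((((Real.hasDerivAt_rpow_const (Or.inl hv')).const_mul _).const_mul _).const_mul _)).sub_const
            _).hasDerivWithinAt
        · intro v hv
          have hv0 := pos v (interior_subset hv)
          have hvb : v ≤ we := (interior_subset hv).2
          have e : v ^ (-a - 1 - 1 - 1) = v ^ (-a - 1 - 1 - 1 - 1) * v := by
            rw [← Real.rpow_add_one hv0.ne']; ring_nf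
          have hq : 0 ≤ v ^ (-a - 1 - 1 - 1 - 1) := Real.rpow_nonneg hv0.le _
          have hb : (1 + c * p) * v ≤ 3 * p + 1 := by
            rcases le_total 0 (1 + c * p) with h | h
            · exact (mul_le_mul_of_nonneg_left hvb h).trans hcv
            · exact (mul_nonpos_of_nonpos_of_nonneg h hv0.le).trans (by linarith)
          have ha0 : 0 ≤ a := inv_nonneg.2 hp'.le
          have hb' : (1 + c * p) * a * v ≤ 3 + a := by
            linear_combination mul_le_mul_of_nonneg_left hb ha0 + 3 * hap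
          rw [e]
          linear_combination mul_le_mul_of_nonneg_left hb'
            (mul_nonneg (mul_nonneg (add_nonneg ha0 zero_le_one) (add_nonneg ha0 zero_le_two)) hq)
      · simp only [hG, ee, ee1]; linarith
    · refine nonneg_of_convex hG1d hG2d (fun v hv => ?_) hw0p h0' h1' hwp
      set r := v ^ (-a) with hr
      have hr0' : 0 < r := Real.rpow_pos_of_pos hv _
      have hn : r ^ p * v = 1 := by
        rw [hr, ← Real.rpow_natCast (v ^ (-a)), ← Real.rpow_mul hv.le, show -a * (p : ℝ) = -1 by linarith,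
          Real.rpow_neg_one, inv_mul_cancel₀ hv.ne']
      obtain ⟨-, q1, q2⟩ := rpow_of_pow hp hr0' hn
      rw [← ha] at q1 q2
      have q3 : v ^ (-a - 1 - 1 - 1) * v = v ^ (-a - 1 - 1) := by
        rw [← Real.rpow_add_one hv.ne']; ring_nf
      have q4 : v ^ (-a - 1 - 1 - 1) = r ^ (3 * p + 1) := by
        refine mul_right_cancel₀ hv.ne' ?_
        rw [q3, q2, show 3 * p + 1 = 2 * p + 1 + p by omega, pow_add _ (2 * p + 1) p, mul_assoc, hn, mul_one]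
      have hm := bernoulli_pow (p := p) hr0'.le hrs hc1
      simp only [hG2, q4, q2]
      have hA := mul_le_mul_of_nonneg_left hm (mul_nonneg (by positivity : (0:ℝ) ≤ a + 1) (inv_nonneg.2 hp'.le : (0:ℝ) ≤ a))
      have h2K : 2 * K ≤ -(a + 1) * rs ^ (3 * p + 1) := by
        refine le_of_mul_le_mul_right ?_ hp'
        linear_combination hc2 + rs ^ (3 * p + 1) * hap
      linear_combination hA + h2K + ((a + 1) * rs ^ (3 * p + 1) + 2 * (a + 1) * r ^ (3 * p + 1)) * hap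
  simp only [hG, ew, ew1] at key
  have hx2 := mul_le_mul_of_nonneg_right h2 (sq_nonneg (w - (1 + sl)))
  have hx1 := mul_le_mul_of_nonneg_right h1 hx
  have e : F0 + d1 * (w - w0) + K * (w - w0) ^ 2 = F0 - d1 * x0 + K * x0 ^ 2 +
      (d1 - 2 * K * x0) * (w - (1 + sl)) + K * (w - (1 + sl)) ^ 2 := by rw [hx0]; ring
  have e2 : (1 + δ) ^ (p + 1) - 1 - ((p : ℝ) + 1) * δ + (1 - c) * (w - 1 + p * δ) =
      (1 + δ) ^ (p + 1) + (1 - c) * w - (1 + c * p) * (1 + δ) + ((p : ℝ) - (1 - c) * (p + 1)) := by ring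
  rw [e] at key
  rw [e2]
  linarith

/-- `R₁` and `R₂` are nonnegative. -/
theorem R_nonneg {p : ℕ} {δ : ℝ} (hd : 0 < 1 + δ) :
    0 ≤ (1 + δ) ^ (p + 1) - 1 - ((p : ℝ) + 1) * δ ∧ 0 ≤ ((1 + δ) ^ p)⁻¹ - 1 + (p : ℝ) * δ := by
  constructor
  · have h := line_le_R1 (p := p) (l := -1) (v := 0) (c0 := 0) (c1 := 0) le_rfl (by norm_num)
      (by linarith : (-1 : ℝ) ≤ δ) (by simp) (by simp)
    linarith
  · have h := line_le_R2 (p := p) (l := -1) (v := 0) (c0 := 0) (c1 := 0) (by norm_num : (-1 : ℝ) < 0)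
      (by linarith : -1 < δ) (by linarith : (-1 : ℝ) ≤ δ) (by simp) (by simp)
    linarith

/-- The exponential below a polynomial. -/
theorem exp_neg_le {x : ℝ} (hx : 0 ≤ x) :
    exp (-x) ≤ 1 - x + x ^ 2 / 2 - x ^ 3 / 6 + x ^ 4 / 24 := by
  have hS := Real.sum_le_exp_of_nonneg hx 5
  simp only [Finset.sum_range_succ, Finset.sum_range_zero, Nat.factorial] at hS
  push_cast at hS
  set S := 1 + x + x ^ 2 / 2 + x ^ 3 / 6 + x ^ 4 / 24 with hSd
  set P := 1 - x + x ^ 2 / 2 - x ^ 3 / 6 + x ^ 4 / 24 with hPd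
  have hS' : S ≤ exp x := by rw [hSd]; linarith
  have h1 : 1 ≤ S * P := by
    have : S * P = 1 + x ^ 6 / 72 + x ^ 8 / 576 := by rw [hSd, hPd]; ring
    rw [this]
    have : (0 : ℝ) ≤ x ^ 6 / 72 + x ^ 8 / 576 := by positivity
    linarith
  have hSp : 0 < S := by rw [hSd]; positivity
  have hP : 0 < P := pos_of_mul_pos_right (by linarith) hSp.le
  rw [Real.exp_neg, inv_le_iff_one_le_mul₀ (exp_pos x)]
  calc (1 : ℝ) ≤ S * P := h1
    _ ≤ exp x * P := mul_le_mul_of_nonneg_right hS' hP.le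
    _ = P * exp x := mul_comm _ _

/-- The bound on the central mass. -/
def massB {R : Type*} [Field R] (p : ℕ) (b : R) : R :=
  let a : R := (p : R) / 2
  b - a * b ^ 3 / 3 + a ^ 2 * b ^ 5 / 10 - a ^ 3 * b ^ 7 / 42 + a ^ 4 * b ^ 9 / 216

theorem massB_cast (p : ℕ) (b : ℚ) : ((massB p b : ℚ) : ℝ) = massB p (b : ℝ) := by
  simp only [massB]; push_cast; ring

theorem mass_le_massB (p : ℕ) {b : ℝ} (hb0 : 0 ≤ b) (hb1 : b ≤ 1) : mass p semi b ≤ massB p b := by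
  set a : ℝ := (p : ℝ) / 2 with ha
  have hder : ∀ u : ℝ, HasDerivAt (fun v => massB p v)
      (1 - a * u ^ 2 + (a * u ^ 2) ^ 2 / 2 - (a * u ^ 2) ^ 3 / 6 + (a * u ^ 2) ^ 4 / 24) u := fun u => by
    simp only [massB, ← ha]
    refine (((((hasDerivAt_id u).sub (((hasDerivAt_pow 3 u).const_mul a).div_const 3)).add
      (((hasDerivAt_pow 5 u).const_mul (a ^ 2)).div_const 10)).sub
      (((hasDerivAt_pow 7 u).const_mul (a ^ 3)).div_const 42)).add
      (((hasDerivAt_pow 9 u).const_mul (a ^ 4)).div_const 216)).congr_deriv ?_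
    push_cast; ring
  have e : (∫ u in (0 : ℝ)..b,
      1 - a * u ^ 2 + (a * u ^ 2) ^ 2 / 2 - (a * u ^ 2) ^ 3 / 6 + (a * u ^ 2) ^ 4 / 24) =
      massB p b - massB p 0 :=
    intervalIntegral.integral_eq_sub_of_hasDerivAt (fun u _ => hder u)
      ((by fun_prop : Continuous _).intervalIntegrable _ _)
  have h0 : massB p (0 : ℝ) = 0 := by simp [massB]
  rw [h0, sub_zero] at e
  rw [← e]
  refine intervalIntegral.integral_mono_on hb0 ((semi_continuous.pow p).intervalIntegrable _ _)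
    ((by fun_prop : Continuous _).intervalIntegrable _ _) fun u hu => ?_
  have hu1 : u ≤ 1 := hu.2.trans hb1
  have hs : semi u ≤ exp (-(u ^ 2) / 2) := by
    rw [semi, Real.sqrt_le_iff]
    refine ⟨(exp_pos _).le, ?_⟩
    rw [← Real.exp_nat_mul]
    have := Real.add_one_le_exp (-(u ^ 2))
    push_cast
    ring_nf at this ⊢
    linarith
  refine (pow_le_pow_left₀ (Real.sqrt_nonneg _) hs p).trans ?_
  rw [← Real.exp_nat_mul, show (p : ℝ) * (-(u ^ 2) / 2) = -(a * u ^ 2) by rw [ha]; ring]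
  exact exp_neg_le (by positivity)

/-- `Reach` gives a lower end of `r` from a lower bound on the tail near the centre. -/
theorem r_ge_near {p : ℕ} {y r : ℝ} (hy : y ∈ Ioo (0 : ℝ) 1) (hr : 0 < r) (h : Reach p y r)
    {y0 y1 S0 v0 X ρ Mu Ml Ml' : ℝ} (hy0 : 0 ≤ y0) (hyl : y0 ≤ y) (hyh : y ≤ y1) (hy1 : y1 ≤ 1)
    (hS0 : 0 ≤ S0) (hS : 1 - y0 ^ 2 ≤ S0 ^ 2) (hMu : mass p semi 1 ≤ Mu) (hMl : Ml ≤ mass p semi 1)
    (hMl' : Ml' ≤ mass (p + 1) semi 1) (hv0 : 0 < v0) (hv1 : v0 ≤ 1)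
    (hv : massB p y1 ≤ (1 - v0) * Ml) (hX : 1 ≤ X ^ (p + 1) * v0) (hX0 : 1 ≤ X)
    (hρ : ρ * Mu * (S0 * (v0 + ((p : ℝ) + 1) * X)) ≤ Ml' * ((p : ℝ) + 2)) : ρ ≤ r := by
  have hM := mass_one_pos isProfile_semi p
  have hm : mass p semi y ≤ mass p semi y1 := by
    have hi : ∀ a b : ℝ, IntervalIntegrable (fun v => semi v ^ p) volume a b := fun a b =>
      (semi_continuous.pow p).intervalIntegrable a b
    rw [← sub_nonneg, mass, mass, intervalIntegral.integral_interval_sub_left (hi 0 y1) (hi 0 y)]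
    exact intervalIntegral.integral_nonneg hyh fun v _ => pow_nonneg (Real.sqrt_nonneg _) _
  have hv' : v0 ≤ tailFrac p y := by
    rw [tailFrac, le_div_iff₀ hM]
    nlinarith [mass_le_massB p (hy.1.le.trans hyh) hy1,
      mul_le_mul_of_nonneg_left hMl (sub_nonneg.2 hv1)]
  have hg := Transport.Finite.reach_ge p hy hr h hv' hv0 hX hX0
  have hsy : semi y ≤ S0 := by
    rw [semi, Real.sqrt_le_iff]
    exact ⟨hS0, le_trans (by nlinarith [pow_le_pow_left₀ hy0 hyl 2]) hS⟩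
  have hK : 0 < v0 + ((p : ℝ) + 1) * X := by positivity
  have hS0' : 0 < S0 := (semi_pos (t := y) ⟨by linarith [hy.1], hy.2⟩).trans_le hsy
  refine le_of_mul_le_mul_right ?_ (show 0 < Mu * (S0 * (v0 + ((p : ℝ) + 1) * X)) by
    have := hM.trans_le hMu; positivity)
  calc ρ * (Mu * (S0 * (v0 + ((p : ℝ) + 1) * X))) ≤ Ml' * ((p : ℝ) + 2) := by linarith
    _ ≤ mass (p + 1) semi 1 * ((p : ℝ) + 2) := by gcongr
    _ ≤ semi y * r * mass p semi 1 * (v0 + ((p : ℝ) + 1) * X) := hg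
    _ ≤ S0 * r * Mu * (v0 + ((p : ℝ) + 1) * X) := by
      have := semi_pos (t := y) ⟨by linarith [hy.1], hy.2⟩
      gcongr
    _ = _ := by ring

theorem semi_concave {a b μ : ℝ} (ha : a ∈ Icc (-1 : ℝ) 1) (hb : b ∈ Icc (-1 : ℝ) 1)
    (hμ : μ ∈ Icc (0 : ℝ) 1) : (1 - μ) * semi a + μ * semi b ≤ semi ((1 - μ) * a + μ * b) := by
  have h1 : 0 ≤ 1 - μ := sub_nonneg.2 hμ.2
  refine Real.le_sqrt_of_sq_le ?_
  have ea := semi_sq ha
  have eb := semi_sq hb
  nlinarith [mul_nonneg (mul_nonneg hμ.1 h1) (sq_nonneg (semi a - semi b)),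
    mul_nonneg (mul_nonneg hμ.1 h1) (sq_nonneg (a - b))]

theorem inv_pow_convex {p : ℕ} {a b m μ : ℝ} (ha : 0 < a) (hb : 0 < b) (hμ : μ ∈ Icc (0 : ℝ) 1)
    (hm : (1 - μ) * a + μ * b ≤ m) : (m ^ p)⁻¹ ≤ (1 - μ) * (a ^ p)⁻¹ + μ * (b ^ p)⁻¹ := by
  have h := (convexOn_zpow (-(p : ℤ))).2 (mem_Ioi.2 ha) (mem_Ioi.2 hb) (sub_nonneg.2 hμ.2) hμ.1
    (by ring)
  simp only [smul_eq_mul, zpow_neg, zpow_natCast] at h
  refine le_trans ?_ h
  have hpos : 0 < (1 - μ) * a + μ * b := by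
    rcases eq_or_lt_of_le hμ.1 with h0 | h0
    · subst h0; simpa using ha
    · nlinarith [mul_pos h0 hb, mul_nonneg (sub_nonneg.2 hμ.2) ha.le]
  exact inv_anti₀ (pow_pos hpos p) (pow_le_pow_left₀ hpos.le hm p)

/-- The `p`-th power of the ratio of the profile between two points, by chords. -/
theorem ratio_chord {p : ℕ} {y u0 u1 P0 P1 μ : ℝ} (hμ : μ ∈ Icc (0 : ℝ) 1)
    (h0 : y * (1 + u0) ∈ Ioo (-1 : ℝ) 1) (h1 : y * (1 + u1) ∈ Ioo (-1 : ℝ) 1)
    (hP0 : semi y ^ p ≤ P0 * semi (y * (1 + u0)) ^ p) (hP1 : semi y ^ p ≤ P1 * semi (y * (1 + u1)) ^ p) :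
    semi y ^ p ≤ ((1 - μ) * P0 + μ * P1) * semi (y * (1 + ((1 - μ) * u0 + μ * u1))) ^ p := by
  have hc := semi_concave (Ioo_subset_Icc_self h0) (Ioo_subset_Icc_self h1) hμ
  rw [show (1 - μ) * (y * (1 + u0)) + μ * (y * (1 + u1)) = y * (1 + ((1 - μ) * u0 + μ * u1)) by ring] at hc
  set A := semi (y * (1 + u0))
  set B := semi (y * (1 + u1))
  set m := semi (y * (1 + ((1 - μ) * u0 + μ * u1)))
  have hA : 0 < A := semi_pos h0
  have hB : 0 < B := semi_pos h1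
  have hY : 0 ≤ semi y ^ p := pow_nonneg (Real.sqrt_nonneg _) p
  have hpos : 0 < m := by
    refine lt_of_lt_of_le ?_ hc
    rcases eq_or_lt_of_le hμ.1 with h | h
    · subst h; simpa using hA
    · nlinarith [mul_pos h hB, mul_nonneg (sub_nonneg.2 hμ.2) hA.le]
  have k := mul_le_mul_of_nonneg_left (inv_pow_convex (p := p) hA hB hμ hc) hY
  have k0 : semi y ^ p * (A ^ p)⁻¹ ≤ P0 := by rw [← div_eq_mul_inv, div_le_iff₀ (pow_pos hA p)]; exact hP0
  have k1 : semi y ^ p * (B ^ p)⁻¹ ≤ P1 := by rw [← div_eq_mul_inv, div_le_iff₀ (pow_pos hB p)]; exact hP1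
  rw [← div_le_iff₀ (pow_pos hpos p), div_eq_mul_inv]
  nlinarith [mul_le_mul_of_nonneg_left k0 (sub_nonneg.2 hμ.2), mul_le_mul_of_nonneg_left k1 hμ.1]

/-- The ridge bounds `w = r ^ (-p)`. -/
theorem ridge_w {p : ℕ} {y t r lam E P : ℝ} (hy : y ∈ Ioo (0 : ℝ) 1) (ht : t ∈ Ioo (0 : ℝ) 1)
    (hr : 0 < r) (hridge : semi t ≤ lam * semi y * r) (hE : lam ^ p ≤ E)
    (hP : semi y ^ p ≤ P * semi t ^ p) : (r ^ p)⁻¹ ≤ E * P := by
  have hst := semi_pos (t := t) ⟨by linarith [ht.1], ht.2⟩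
  have hsy := semi_pos (t := y) ⟨by linarith [hy.1], hy.2⟩
  have h := pow_le_pow_left₀ hst.le hridge p
  rw [mul_pow, mul_pow] at h
  have hP0 : 0 < P := pos_of_mul_pos_left (lt_of_lt_of_le (pow_pos hsy p) hP) (pow_pos hst p).le
  have hl : 0 < lam ^ p := by
    refine pos_of_mul_pos_left (pos_of_mul_pos_left (lt_of_lt_of_le (pow_pos hst p) h) (pow_pos hr p).le)
      (pow_pos hsy p).le
  rw [inv_le_iff_one_le_mul₀ (pow_pos hr p)]
  refine le_of_mul_le_mul_right ?_ (pow_pos hst p)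
  calc 1 * semi t ^ p = semi t ^ p := one_mul _
    _ ≤ lam ^ p * semi y ^ p * r ^ p := h
    _ ≤ E * (P * semi t ^ p) * r ^ p := by
      have := pow_pos hr p
      have hE0 : 0 ≤ E := hl.le.trans hE
      gcongr
    _ = E * P * r ^ p * semi t ^ p := by ring

end Vale.Agent.P237.All.Finite.W

namespace Vale.Agent.P237.All.Transport.Finite

/-- The bracket for `β = 1` in the coordinate `s`. -/
theorem bracket_le_w {p : ℝ} {z : ℝ} {P : Par} {δ τ R1 R2 c q s dh : ℝ} (hp : 0 ≤ p)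
    (hz0 : 0 ≤ z) (hz1 : z ≤ 1) (hs : s = R2 - p * δ) (hR1 : 0 ≤ R1) (hR2 : 0 ≤ R2)
    (hc : cd p 1 z P + p * ((1 - z) * P.f) + 4 * p * (1 - z) +
      τ * (cdt p 1 z P + 2 * p * ((1 - z) * P.h)) ≤ 4 * p * (1 - z) * c)
    (hq : q ≤ R1 + (1 - c) * R2) (hzc : zc p 1 P ≤ 0) (hd : dh ≤ δ) :
    p * bracket p 1 z P δ τ R1 R2 ≤ p * c00 p z P - s * (cd p 1 z P + cdt p 1 z P * τ) +
      p * ct p 1 z P * τ + p * ctt p 1 z P * τ ^ 2 + p * dh * z * zc p 1 P * τ ^ 2 -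
      4 * p * (1 - z) * q := by
  have e : p * bracket p 1 z P δ τ R1 R2 = p * c00 p z P + (R2 - s) * (cd p 1 z P + cdt p 1 z P * τ) +
      p * ct p 1 z P * τ + p * ctt p 1 z P * τ ^ 2 + p * δ * z * zc p 1 P * τ ^ 2 -
      4 * p * (1 - z + z * τ ^ 2) * R1 + p * (1 - z) * (P.f + 2 * P.h * τ) * R2 := by
    rw [hs]; simp only [bracket, cc]; ring
  have k1 := mul_le_mul_of_nonneg_right hc hR2
  have k2 : 0 ≤ 4 * p * (1 - z) * (R1 + (1 - c) * R2 - q) :=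
    mul_nonneg (mul_nonneg (by linarith) (sub_nonneg.2 hz1)) (sub_nonneg.2 hq)
  have k3 : 0 ≤ 4 * p * (z * τ ^ 2) * R1 :=
    mul_nonneg (mul_nonneg (by linarith) (mul_nonneg hz0 (sq_nonneg τ))) hR1
  have k4 : p * z * τ ^ 2 * (δ * zc p 1 P) ≤ p * z * τ ^ 2 * (dh * zc p 1 P) :=
    mul_le_mul_of_nonneg_left (mul_le_mul_of_nonpos_right hd hzc)
      (mul_nonneg (mul_nonneg hp hz0) (sq_nonneg τ))
  rw [e]
  linarith

end Vale.Agent.P237.All.Transport.Finite
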