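import Vale.Agent.P237.All.Finite.Fast.Cell
import Vale.Agent.P237.All.Finite.W.Major

/-!
P237, finitely many dimensions, `β = 1`: the data and the test of a piece cut in `s = r ^ (-p) - 1`.
A leaf covers `sl ≤ s ≤ sl + H`; its forms are linear in `(x, τ)`, `x = s - sl`.
-/

noncomputable section

namespace Vale.Agent.P237.All.Finite.W

/-- A node of a chord: `u`, a bound on `(1 - z) / (1 - z (1 + u)²)` and one on its power `p / 2`. -/
structure Node where
  u : ℤ
  R : ℤ
  F : ℤ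

/-- The line `x ≤ A + B τ` between two ends that are affine in the cell. -/
structure Line where
  A0 : ℤ
  A1 : ℤ
  B : ℤ
  a0 : Node
  a1 : Node
  b0 : Node
  b1 : Node

/-- The quadratic at one end in `k`; `rs` witnesses the least second derivative (zero: the secant). -/
structure Quad where
  q0 : ℤ
  q1 : ℤ
  q2 : ℤ
  rs : ℤ

/-- The forms. -/
inductive Fm where
  | one
  | x
  | hx
  | cap
  | one2
  | ta
  | bt
  | zb
  | line
deriving DecidableEq

/-- The degree of a form in the parameters. -/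
def Fm.deg : Fm → ℕ
  | .ta => 1
  | .bt => 1
  | .zb => 1
  | .line => 1
  | _ => 0

/-- A product of two forms with a multiplier that is affine in `z`, polynomial in `W`. -/
structure Mu where
  i : Fm
  j : Fm
  a0 : ℤ
  a1 : ℤ
  a2 : ℤ
  b0 : ℤ
  b1 : ℤ
  b2 : ℤ

/-- A leaf. -/
structure Leaf where
  sl : ℤ
  H : ℤ
  dh : ℤ
  d0 : ℤ
  k0 : Quad
  k1 : Quad
  ln : Line
  e0 : ℤ
  e1 : ℤ
  mus : List Mu
  one : Mu

/-- A part of a piece near the centre: its right end, `v` below the tail, `X`, the bound on `semi`. -/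
structure Near where
  Y : ℤ
  S0 : ℤ
  v0 : ℤ
  X : ℤ

/-- A piece; without leaves the tree of its base is used. -/
structure WPiece where
  base : Piece
  c0 : ℤ
  c1 : ℤ
  ca : ℤ
  cb : ℤ
  rho : ℤ
  near : List Near
  leaves : List Leaf

/-- The packed values of the three coefficients of a form. -/
structure LF where
  c : PK
  x : PK
  t : PK

/-- The coefficients of a form, `U d` times the real ones. -/
def Fm.lf (B : ℕ) (U QQ : ℤ) (back : Bool) (G : Frame) (I : IPar) (L : Leaf) : Fm → LF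
  | .one => ⟨G.D.smul U, PK.const 0, PK.const 0⟩
  | .x => ⟨PK.const 0, G.D.smul U, PK.const 0⟩
  | .hx => ⟨G.D.smul L.H, G.D.smul (-U), PK.const 0⟩
  | .cap => ⟨PK.lin B stride (L.e0 * QQ) (L.e1 * QQ), PK.const 0, G.D.smul (-U)⟩
  | .one2 => ⟨G.S.smul U, PK.const 0, G.Z.smul (-(2 * U))⟩
  | .ta => ⟨if back then G.S.mul I.al else G.D.mul I.o, PK.const 0, G.D.mul I.o⟩
  | .bt => ⟨G.D.mul I.bb, PK.const 0, (G.D.mul I.o).smul (-1)⟩
  | .zb => ⟨G.S.mul I.eq, PK.const 0, G.Z.mul I.o⟩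
  | .line => ⟨G.D.mul (PK.linW B L.ln.A0 L.ln.A1), (G.D.mul I.o).smul (-1), G.D.mul (PK.linW B L.ln.B L.ln.B)⟩

/-- A polynomial in `W` of degree at most `2 - deg`. -/
def muW (B : ℕ) (deg : ℕ) (a b c : ℤ) : PK :=
  if deg = 0 then (PK.const a).add ((PK.linW B 0 1).mul (PK.linW B b c))
  else if deg = 1 then PK.linW B a b else PK.const a

/-- The multiplier; `G'` is the denominator to one power less. -/
def muP (B : ℕ) (U QQ : ℤ) (G' : PK) (deg : ℕ) (m : Mu) : PK :=
  (G'.mul (((PK.lin B stride QQ 0).mul (muW B deg m.a0 m.a1 m.a2)).add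
    ((PK.lin B stride 0 QQ).mul (muW B deg m.b0 m.b1 m.b2)))).smul (U * U)

/-- Adds a product to the six coefficients. -/
def prodAcc (mu : PK) (f g : LF) (E : Six) : Six :=
  ⟨E.e00.add (mu.mul (f.c.mul g.c)),
    E.e01.add (mu.mul ((f.c.mul g.x).add (f.x.mul g.c))),
    E.e02.add (mu.mul ((f.c.mul g.t).add (f.t.mul g.c))),
    E.e11.add (mu.mul (f.x.mul g.x)),
    E.e12.add (mu.mul ((f.x.mul g.t).add (f.t.mul g.x))),
    E.e22.add (mu.mul (f.t.mul g.t))⟩

/-- Adds the products of a leaf. -/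
def musAcc (B : ℕ) (U QQ : ℤ) (back : Bool) (G : Frame) (G' : PK) (I : IPar) (L : Leaf) (E : Six) :
    List Mu → Six
  | [] => E
  | m :: l =>
    (musAcc B U QQ back G G' I L E l).strict fun E' =>
    (muP B U QQ G' (m.i.deg + m.j.deg) m).strict fun mu =>
    prodAcc mu (m.i.lf B U QQ back G I L) (m.j.lf B U QQ back G I L) E'

/-- Adds the quadratic `1 - z - 2 z τ - z τ²`. -/
def oneAcc (B : ℕ) (U QQ : ℤ) (G : Frame) (G' : PK) (m : Mu) (E : Six) : Six :=
  (muP B U QQ G' 0 m).strict fun mu =>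
  ⟨E.e00.add (mu.mul ((G.S.mul G.D).smul (U * U))), E.e01,
    E.e02.add (mu.mul ((G.Z.mul G.D).smul (-(2 * (U * U))))), E.e11, E.e12,
    E.e22.add (mu.mul ((G.Z.mul G.D).smul (-(U * U))))⟩

/-- `p` times the coefficients of the bracket at `s = sl + x`. -/
def major (K : KC) (c : Ctx) (L : Leaf) : Six :=
  let U := K.U
  let p : ℤ := K.p
  ((c.G.S.mul c.G.DN).mul (c.G.D.mul c.I.o)).strict fun sd =>
  { e00 := ((c.b.b00.smul (p * U)).sub (c.b.bcd.smul L.sl)).sub
      ((sd.mul (PK.linW c.m.B L.k0.q0 L.k1.q0)).smul (4 * p * (U * U * U)))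
    e01 := (c.b.bcd.smul (-U)).sub ((sd.mul (PK.linW c.m.B L.k0.q1 L.k1.q1)).smul (4 * p * (U * U * U)))
    e02 := (c.b.bct.smul (p * U)).sub (c.b.bcdt.smul L.sl)
    e11 := (sd.mul (PK.linW c.m.B L.k0.q2 L.k1.q2)).smul (-(4 * p * (U * U * U)))
    e12 := c.b.bcdt.smul (-U)
    e22 := (c.b.bctt.smul (p * U)).add
      (((c.G.DN.mul c.G.D).mul ((c.G.Z.mul ((c.I.g.smul ((p + 4) * U)).add (c.I.o.smul K.k3))).mul c.I.o)).smul
        (p * L.dh * U)) }

/-- The coefficient of `R₂` is not positive at `τ = t / U`. -/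
def cTest (K : KC) (c : Ctx) (c0 c1 t : ℤ) : Bool :=
  let U := K.U
  let p : ℤ := K.p
  ((c.G.S.mul c.G.DN).mul (c.G.D.mul c.I.o)).strict fun sd =>
  c.m.pos ((sd.mul (PK.linW c.m.B c0 c1)).smul (4 * p * (U * U * U)) |>.sub
    ((((c.b.bcd.add (c.b.bsf.smul p)).add ((sd.mul c.I.o).smul (4 * p * (U * U)))).smul U).add
      ((c.b.bcdt.add (c.b.bsh.smul (2 * p))).smul t)))

/-- The quadratic of one end is below `R₁ + (1 - c) R₂`. -/
def quadTest (p : ℕ) (U c sl dh d0 : ℤ) (k : Quad) : Bool :=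
  let P : ℤ := p
  let a := U + d0
  let e := U + dh
  let A := a ^ p
  let E := e ^ p
  let Up := U ^ p
  let U2p := Up * Up
  let D1 := -(P + 1) * (A * A * a) * U + (U - c) * P * (U2p * U) + (U + c * P) * (A * a) * Up
  let X0 := Up * U - (U + sl) * A
  let F := fun (x X : ℤ) => (X * x) * P * (Up * U * U) * (X * X) + (U - c) * P * (U2p * Up * U * U) * X -
    (U + c * P) * x * P * (U2p * U) * (X * X)
  let S := k.rs ^ p
  decide (0 < e) && decide (dh < d0) && decide (0 < a) &&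
    decide (k.q1 * P * (U2p * U) * A ≤ D1 * A - 2 * k.q2 * X0 * P * U2p) &&
    decide (k.q0 * P * (U2p * U * U) * (A * A) ≤ F a A +
      (P * U - (U - c) * (P + 1)) * P * (U2p * U * U) * (A * A) - D1 * X0 * A + k.q2 * X0 * X0 * P * U2p) &&
    ((decide ((U + P * c) * Up ≤ (3 * P + 1) * U * E) &&
        decide (F a A * (E * E) + D1 * (Up * U) * (A - E) * A * E +
          k.q2 * P * (U2p * U2p * U * U) * ((A - E) * (A - E)) ≤ F e E * (A * A))) ||
      (decide (0 < k.rs) && decide ((U + P * c) * Up ≤ (3 * P + 1) * U * S) &&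
        decide (2 * k.q2 * P * (U2p * Up) ≤ -(P + 1) * (S * S * S * k.rs))))

/-- The ratio at a node, at both ends of the piece, and its power. -/
def nodeTest (p : ℕ) (U Z0 Z1 D : ℤ) (n : Node) : Bool :=
  let v := (U + n.u) * (U + n.u)
  decide (0 ≤ U + n.u) && decide (0 < U * U * D - Z1 * v) && decide (0 ≤ n.R) && decide (0 ≤ n.F) &&
    decide ((D - Z0) * (U * U * U) ≤ n.R * (U * U * D - Z0 * v)) &&
    decide ((D - Z1) * (U * U * U) ≤ n.R * (U * U * D - Z1 * v)) &&
    decide (n.R ^ p * (U * U) ≤ n.F * n.F * U ^ p)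

/-- The line holds on the region of the leaf. -/
def lineTest (C : Cell) (P : WPiece) (c : Ctx) (L : Leaf) : Bool :=
  let U := C.K.U
  let n := L.ln
  let E0 := U + C.e0.eps
  let E1 := U + C.e1.eps
  let at' := fun (A u : ℤ) => (U + L.sl + A) * U + n.B * u
  decide (0 ≤ E0) && decide (0 ≤ E1) &&
    nodeTest C.K.p U c.Z0 c.Z1 c.D n.a0 && nodeTest C.K.p U c.Z0 c.Z1 c.D n.a1 &&
    nodeTest C.K.p U c.Z0 c.Z1 c.D n.b0 && nodeTest C.K.p U c.Z0 c.Z1 c.D n.b1 &&
    (if P.base.back then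
      decide (0 ≤ P.base.al0) && decide (0 ≤ P.base.al1) &&
        decide (n.a0.u * c.D ≤ -P.base.al0 * (c.D - c.Z0)) && decide (n.a1.u * c.D ≤ -P.base.al1 * (c.D - c.Z0))
    else decide (n.a0.u ≤ -U) && decide (n.a1.u ≤ -U)) &&
    decide (n.a0.u ≤ n.b0.u) && decide (n.a1.u ≤ n.b1.u) &&
    decide (E0 * n.a0.F ≤ at' n.A0 n.a0.u) && decide (E1 * n.a1.F ≤ at' n.A1 n.a1.u) &&
    decide (E0 * n.a1.F + E1 * n.a0.F ≤ at' n.A0 n.a0.u + at' n.A1 n.a1.u) &&
    decide (E0 * n.b0.F ≤ at' n.A0 n.b0.u) && decide (E1 * n.b1.F ≤ at' n.A1 n.b1.u) &&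
    decide (E0 * n.b1.F + E1 * n.b0.F ≤ at' n.A0 n.b0.u + at' n.A1 n.b1.u) &&
    ((decide (P.base.bb0 ≤ n.b0.u) && decide (P.base.bb1 ≤ n.b1.u)) ||
      (decide (P.cb ≤ n.b0.u) && decide (P.cb ≤ n.b1.u)) ||
      (decide (0 ≤ n.B) && decide (L.H * U ≤ n.A0 * U + n.B * n.b0.u) &&
        decide (L.H * U ≤ n.A1 * U + n.B * n.b1.u)))

/-- The chord of the top of `τ` is above `1 / √z - 1`. -/
def capOk (U : ℤ) (c : Ctx) (L : Leaf) : Bool :=
  decide (0 ≤ U + L.e0) && decide (0 ≤ U + L.e1) &&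
    decide (U * U * c.D ≤ c.Z0 * ((U + L.e0) * (U + L.e0))) &&
    decide (U * U * c.D ≤ c.Z1 * ((U + L.e1) * (U + L.e1)))

/-- The forms used are valid, their degree is at most two, the multipliers are nonnegative. -/
def musTest (line cap : Bool) : List Mu → Bool
  | [] => true
  | m :: l => decide (0 ≤ m.a0) && decide (0 ≤ m.a1) && decide (0 ≤ m.a2) &&
      decide (0 ≤ m.b0) && decide (0 ≤ m.b1) && decide (0 ≤ m.b2) &&
      (decide (m.i ≠ .line) && decide (m.j ≠ .line) || line) &&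
      (decide (m.i ≠ .cap) && decide (m.j ≠ .cap) || cap) && musTest line cap l

/-- The test of a leaf. -/
def leafTest (C : Cell) (P : WPiece) (c : Ctx) (G' : PK) (L : Leaf) : Bool :=
  let U := C.K.U
  decide (0 ≤ U + L.sl) && quadTest C.K.p U P.c0 L.sl L.dh L.d0 L.k0 && quadTest C.K.p U P.c1 L.sl L.dh L.d0 L.k1 &&
    musTest (lineTest C P c L) (capOk U c L) L.mus && musTest true true [L.one] &&
    (major C.K c L).strict fun M =>
    (musAcc c.m.B U (C.Q * C.Q) P.base.back c.G G' c.I L M L.mus).strict fun E =>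
    (oneAcc c.m.B U (C.Q * C.Q) c.G G' L.one E).strict fun E =>
    (c.w.smul C.K.p).strict fun w => pdTest c.m c.G.S w E

/-- The parts of `[Y, Y1]` near the centre give `r ≥ rho`. -/
def nearTest (C : Cell) (rho Y1 : ℤ) : ℤ → List Near → Bool
  | Y, [] => decide (Y1 ≤ Y)
  | Y, n :: l =>
    let U : ℚ := C.K.U
    let p := C.K.p
    let Q := C.Q
    let v : ℚ := (n.v0 : ℚ) / U
    let X : ℚ := (n.X : ℚ) / U
    decide (0 ≤ Y) && decide (Y ≤ n.Y) && decide (n.Y ≤ Q) && decide (0 ≤ n.S0) &&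
      decide (C.K.U * C.K.U * (Q * Q - Y * Y) ≤ n.S0 * n.S0 * (Q * Q)) && decide (0 < n.v0) &&
      decide (n.v0 ≤ C.K.U) && decide (C.K.U ≤ n.X) && decide (1 ≤ X ^ (p + 1) * v) &&
      decide (massB p ((n.Y : ℚ) / Q) ≤ (1 - v) * Transport.Finite.massQ (31415 / 10000) p) &&
      decide ((rho : ℚ) / U * Transport.Finite.massQ (31416 / 10000) p * ((n.S0 : ℚ) / U * (v + ((p : ℚ) + 1) * X)) ≤
        Transport.Finite.massQ (31415 / 10000) (p + 1) * ((p : ℚ) + 2)) &&
      nearTest C rho Y1 n.Y l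

/-- The leaves join up from `sl` and the last one reaches the bound from `rho`. -/
def chainTest (p : ℕ) (U rho : ℤ) : ℤ → List Leaf → Bool
  | _, [] => false
  | s, [L] => decide (L.sl = s) && decide (U + L.dh ≤ rho) && decide (U ^ p * U ≤ (U + (L.sl + L.H)) * rho ^ p)
  | s, L :: l => decide (L.sl = s) &&
      decide (0 ≤ U + L.dh) && decide ((U + (L.sl + L.H)) * (U + L.dh) ^ p ≤ U ^ p * U) &&
      chainTest p U rho (L.sl + L.H) l

/-- The test of a piece cut in `s`, beyond that of its base. -/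
def cutTest (C : Cell) (c : Ctx) (P : WPiece) : Bool :=
  let U := C.K.U
  decide (0 < P.rho) &&
    (decide (P.rho ≤ P.base.rho) || nearTest C P.rho P.base.Y1 P.base.Y0 P.near) &&
    chainTest C.K.p U P.rho (-U) P.leaves &&
    (if P.base.back then
      decide (0 ≤ P.base.al0) && decide (0 ≤ P.base.al1) &&
        decide (P.ca * c.D ≤ -P.base.al0 * (c.D - c.Z0)) && decide (P.ca * c.D ≤ -P.base.al1 * (c.D - c.Z0))
    else decide (P.ca ≤ -U)) &&
    decide (P.base.bb0 ≤ P.cb) && capTest U c P.base.bb1 P.cb &&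
    cTest C.K c P.c0 P.c1 P.ca && cTest C.K c P.c0 P.c1 P.cb &&
    (horner c.G.Z c.G.D (C.e0.F.take (C.K.N - 1))).2.strict fun G' => P.leaves.all (leafTest C P c G')

/-- A cell cut in `s`: the cell without pieces, and the pieces. -/
structure WCell where
  C : Cell
  wp : List WPiece

/-- The cell of the pieces' bases. -/
def WCell.cell (W : WCell) : Cell := { W.C with pieces := W.wp.map WPiece.base }

/-- The test of the cell outside the pieces. -/
def wHeadTest (W : WCell) : Bool :=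
  headTest W.cell && decide (W.C.be = W.C.K.U) &&
    decide (((W.C.K.p : ℤ) + 4) * W.C.e0.g + W.C.K.k3 ≤ 0) &&
    decide (((W.C.K.p : ℤ) + 4) * W.C.e1.g + W.C.K.k3 ≤ 0)

/-- The test of one piece, as the kernel runs it. -/
def wPieceTest (C : Cell) (m : Msk) (P : WPiece) : Bool :=
  pieceF C (Transport.Finite.massQ (31416 / 10000) C.K.p)
      (Transport.Finite.massQ (31415 / 10000) (C.K.p + 1)) P.base &&
    (ctx C m P.base).strict fun c =>
      match P.leaves with
      | [] => treeF C.K C.e0 C.e1 P.base c (rootBox C.K.U P.base) P.base.tree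
      | _ :: _ => cutTest C c P

/-- The test of three pieces from the `3 i`-th on. -/
def wChunkTest (W : WCell) (i : ℕ) : Bool :=
  (Msk.of W.C.B W.C.K.N).strict fun m => ((W.wp.drop (3 * i)).take 3).all (wPieceTest W.cell m)

end Vale.Agent.P237.All.Finite.W
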