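import Vale.Agent.P237.All.Finite.Decode
import Vale.Agent.P237.All.Finite.W.Check

/-!
P237, finitely many dimensions, `β = 1`: compact encoding of the leaves.  The tests check whatever is
decoded, so nothing about the decoding needs proof.
-/

noncomputable section

namespace Vale.Agent.P237.All.Finite.W

/-- A form from its number. -/
def fmOf (n : ℕ) : Fm :=
  Bool.rec (Bool.rec (Bool.rec (Bool.rec .line .zb (Nat.ble n 7)) .bt (Nat.ble n 6))
      (Bool.rec .ta .one2 (Nat.ble n 4)) (Nat.ble n 5))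
    (Bool.rec (Bool.rec .cap .hx (Nat.ble n 2)) (Bool.rec .x .one (Nat.ble n 0)) (Nat.ble n 1))
    (Nat.ble n 3)

/-- Six signed fields of a multiplier, evaluated. -/
def getMu {α : Type} (n : ℕ) (i : ℕ) (a b : Fm) (k : Mu → α) : α :=
  sZ (getZ n i) fun z0 => sZ (getZ n (Nat.add i 1)) fun z1 => sZ (getZ n (Nat.add i 2)) fun z2 =>
  sZ (getZ n (Nat.add i 3)) fun z3 => sZ (getZ n (Nat.add i 4)) fun z4 => sZ (getZ n (Nat.add i 5)) fun z5 =>
    k ⟨a, b, z0, z1, z2, z3, z4, z5⟩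

/-- Multipliers, eight fields each, evaluated. -/
def getWMus {α : Type} (n : ℕ) : ℕ → ℕ → (List Mu → α) → α
  | _, 0, k => k []
  | i, c + 1, k =>
    forceN (field n i) fun a => forceN (field n (Nat.add i 1)) fun b =>
      getMu n (Nat.add i 2) (fmOf a) (fmOf b) fun m => getWMus n (Nat.add i 8) c fun l => k (m :: l)

/-- The fields of a node, evaluated. -/
def getNode {α : Type} (n i : ℕ) (k : Node → α) : α :=
  sZ (getZ n i) fun u => sZ (getZ n (Nat.add i 1)) fun R => sZ (getZ n (Nat.add i 2)) fun F => k ⟨u, R, F⟩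

/-- The fields of a quadratic, evaluated. -/
def getQuad {α : Type} (n i : ℕ) (k : Quad → α) : α :=
  sZ (getZ n i) fun a => sZ (getZ n (Nat.add i 1)) fun b => sZ (getZ n (Nat.add i 2)) fun c =>
  sZ (getZ n (Nat.add i 3)) fun d => k ⟨a, b, c, d⟩

/-- A packed leaf. -/
def wleafOf (n : ℕ) : Leaf :=
  sZ (getZ n 0) fun sl => sZ (getZ n 1) fun H => sZ (getZ n 2) fun dh => sZ (getZ n 3) fun d0 =>
  getQuad n 4 fun k0 => getQuad n 8 fun k1 =>
  sZ (getZ n 12) fun A0 => sZ (getZ n 13) fun A1 => sZ (getZ n 14) fun B =>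
  getNode n 15 fun a0 => getNode n 18 fun a1 => getNode n 21 fun b0 => getNode n 24 fun b1 =>
  sZ (getZ n 27) fun e0 => sZ (getZ n 28) fun e1 =>
  getMu n 29 .one .one fun one =>
  getWMus n 36 (field n 35) fun mus =>
  ⟨sl, H, dh, d0, k0, k1, ⟨A0, A1, B, a0, a1, b0, b1⟩, e0, e1, mus, one⟩

end Vale.Agent.P237.All.Finite.W
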