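import Vale.Agent.P237.All.Finite.W.Check

/-!
P237, finitely many dimensions, `β = 1`: at a point of a leaf its chord and its quadratics hold and its
forms and multipliers are nonnegative.
-/

noncomputable section

open MeasureTheory Set Real

namespace Vale.Agent.P237.All.Finite.W

open Transport Transport.Finite

theorem ctx_fields (C : Cell) (m : Msk) (P : Piece) :
    (ctx C m P).m = m ∧ (ctx C m P).Z0 = P.Y0 * P.Y0 ∧ (ctx C m P).Z1 = P.Y1 * P.Y1 ∧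
      (ctx C m P).D = C.Q * C.Q ∧
      (ctx C m P).G = frameOf C (P.Y0 * P.Y0) (P.Y1 * P.Y1) (C.Q * C.Q) ∧
      (ctx C m P).I = parOf C P := by
  simp [ctx, Frame.strict_eq, IPar.strict_eq]

/-- A chord of `1 / √z - 1` is above it. -/
theorem cap_chord {z0 z1 a0 a1 u : ℝ} (h0 : 0 ≤ a0) (h1 : 0 ≤ a1) (g0 : 1 ≤ z0 * a0 ^ 2)
    (g1 : 1 ≤ z1 * a1 ^ 2) (hu : u ∈ Icc (0 : ℝ) 1) :
    1 ≤ ((1 - u) * z0 + u * z1) * ((1 - u) * a0 + u * a1) ^ 2 := by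
  have b0 : 0 < a0 := h0.lt_of_ne fun e => by rw [← e] at g0; norm_num at g0
  have b1 : 0 < a1 := h1.lt_of_ne fun e => by rw [← e] at g1; norm_num at g1
  have hu' : 0 ≤ 1 - u := sub_nonneg.2 hu.2
  obtain ⟨i0, e0⟩ : ∃ i, a0 * i = 1 := ⟨a0⁻¹, mul_inv_cancel₀ b0.ne'⟩
  obtain ⟨i1, e1⟩ : ∃ i, a1 * i = 1 := ⟨a1⁻¹, mul_inv_cancel₀ b1.ne'⟩
  have k0 : i0 ^ 2 ≤ z0 := by
    have := mul_le_mul_of_nonneg_right g0 (sq_nonneg i0)
    linear_combination this + z0 * (a0 * i0 + 1) * e0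
  have k1 : i1 ^ 2 ≤ z1 := by
    have := mul_le_mul_of_nonneg_right g1 (sq_nonneg i1)
    linear_combination this + z1 * (a1 * i1 + 1) * e1
  have hm : ((1 - u) * i0 + u * i1) ^ 2 ≤ (1 - u) * z0 + u * z1 := by
    nlinarith [mul_le_mul_of_nonneg_left k0 hu', mul_le_mul_of_nonneg_left k1 hu.1,
      mul_nonneg (mul_nonneg hu.1 hu') (sq_nonneg (i0 - i1))]
  have hA : 1 ≤ ((1 - u) * i0 + u * i1) * ((1 - u) * a0 + u * a1) := by
    have hs : 2 ≤ i0 * a1 + i1 * a0 := by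
      refine le_of_mul_le_mul_left ?_ (mul_pos b0 b1)
      linear_combination (sq_nonneg (a0 - a1)) - a1 ^ 2 * e0 - a0 ^ 2 * e1
    linear_combination mul_le_mul_of_nonneg_left (mul_le_mul_of_nonneg_left hs hu') hu.1 - (1 - u) ^ 2 * e0 - u ^ 2 * e1
  calc (1 : ℝ) ≤ (((1 - u) * i0 + u * i1) * ((1 - u) * a0 + u * a1)) ^ 2 := one_le_pow₀ hA
    _ = ((1 - u) * i0 + u * i1) ^ 2 * ((1 - u) * a0 + u * a1) ^ 2 := mul_pow _ _ _
    _ ≤ _ := mul_le_mul_of_nonneg_right hm (sq_nonneg _)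

variable {C : Cell} {P : Piece}

theorem node_sound (hU : 0 < C.K.U) (hQ : 0 < C.Q) (hY0 : 0 ≤ P.Y0) {n : Node}
    (h : nodeTest C.K.p C.K.U (P.Y0 * P.Y0) (P.Y1 * P.Y1) (C.Q * C.Q) n = true) {y : ℝ}
    (hy : y ∈ Ico ((P.Y0 : ℝ) / C.Q) ((P.Y1 : ℝ) / C.Q)) (hy1 : y < 1) :
    y * (1 + (n.u : ℝ) / C.K.U) ∈ Ioo (-1 : ℝ) 1 ∧ 0 ≤ (n.F : ℝ) / C.K.U ∧
      semi y ^ C.K.p ≤ (n.F : ℝ) / C.K.U * semi (y * (1 + (n.u : ℝ) / C.K.U)) ^ C.K.p := by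
  simp only [nodeTest, Bool.and_eq_true, decide_eq_true_eq] at h
  obtain ⟨⟨⟨⟨⟨⟨hu, hv⟩, hR⟩, hF⟩, h0⟩, h1⟩, hP⟩ := h
  have hU' : (0 : ℝ) < C.K.U := by exact_mod_cast hU
  have hQ' : (0 : ℝ) < C.Q := by exact_mod_cast hQ
  have hu2 : (0 : ℝ) ≤ (C.K.U : ℝ) + n.u := by exact_mod_cast hu
  have hs0 : ∀ v, 0 ≤ semi v := fun v => Real.sqrt_nonneg _
  set U := (C.K.U : ℝ)
  set a := 1 + (n.u : ℝ) / U with had
  have ha : 0 ≤ a := by
    rw [had, one_add_div hU'.ne']; exact div_nonneg hu2 hU'.le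
  have hy0 : 0 ≤ y := le_trans (div_nonneg (by exact_mod_cast hY0) hQ'.le) hy.1
  have hz : y ^ 2 ≤ ((P.Y1 : ℝ) / C.Q) ^ 2 := pow_le_pow_left₀ hy0 hy.2.le 2
  have hz' : ((P.Y0 : ℝ) / C.Q) ^ 2 ≤ y ^ 2 :=
    pow_le_pow_left₀ (div_nonneg (by exact_mod_cast hY0) hQ'.le) hy.1 2
  have g : ((P.Y1 : ℝ) / C.Q) ^ 2 * a ^ 2 < 1 := by
    have q := (Int.cast_lt (R := ℝ)).2 hv
    push_cast at q
    rw [had, one_add_div hU'.ne', div_pow, div_pow, div_mul_div_comm, div_lt_one (by positivity)]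
    linear_combination q
  have hza : y ^ 2 * a ^ 2 < 1 := (mul_le_mul_of_nonneg_right hz (sq_nonneg a)).trans_lt g
  have hI : y * a ∈ Ioo (-1 : ℝ) 1 := by
    refine ⟨lt_of_lt_of_le (by norm_num) (mul_nonneg hy0 ha), ?_⟩
    nlinarith [mul_nonneg hy0 ha]
  refine ⟨hI, div_nonneg (by exact_mod_cast hF) hU'.le, ?_⟩
  set R := (n.R : ℝ) / U
  have hR0 : 0 ≤ R := div_nonneg (by exact_mod_cast hR) hU'.le
  have q0 := (Int.cast_le (R := ℝ)).2 h0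
  have q1 := (Int.cast_le (R := ℝ)).2 h1
  push_cast at q0 q1
  have hc : (0 : ℝ) < (C.Q : ℝ) * C.Q * (U * U * U) := by positivity
  have k0 := div_le_div_of_nonneg_right q0 hc.le
  have k1 := div_le_div_of_nonneg_right q1 hc.le
  have r0 : 1 - ((P.Y0 : ℝ) / C.Q) ^ 2 ≤ R * (1 - ((P.Y0 : ℝ) / C.Q) ^ 2 * a ^ 2) := by
    refine le_of_eq_of_le ?_ (k0.trans_eq ?_) <;> ((try simp only [R, had]); field_simp; try ring)
  have r1 : 1 - ((P.Y1 : ℝ) / C.Q) ^ 2 ≤ R * (1 - ((P.Y1 : ℝ) / C.Q) ^ 2 * a ^ 2) := by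
    refine le_of_eq_of_le ?_ (k1.trans_eq ?_) <;> ((try simp only [R, had]); field_simp; try ring)
  have hr : 1 - y ^ 2 ≤ R * (1 - y ^ 2 * a ^ 2) := by
    rcases le_total (R * a ^ 2) 1 with hc | hc
    · linear_combination r0 + mul_le_mul_of_nonneg_left hz' (sub_nonneg.2 hc)
    · linear_combination r1 + mul_le_mul_of_nonneg_left hz (sub_nonneg.2 hc)
  have qP := (Int.cast_le (R := ℝ)).2 hP
  push_cast at qP
  have kP : R ^ C.K.p ≤ ((n.F : ℝ) / U) ^ 2 := by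
    have k := div_le_div_of_nonneg_right qP (show (0 : ℝ) ≤ U ^ C.K.p * U ^ 2 by positivity)
    refine le_of_eq_of_le ?_ (k.trans_eq ?_) <;> ((try simp only [R, div_pow]); field_simp; try ring)
  refine (pow_le_pow_iff_left₀ (pow_nonneg (hs0 _) _)
    (mul_nonneg (div_nonneg (by exact_mod_cast hF) hU'.le) (pow_nonneg (hs0 _) _))
    two_ne_zero).1 ?_
  rw [mul_pow, ← pow_mul, ← pow_mul, mul_comm C.K.p 2, pow_mul, pow_mul,
    semi_sq ⟨by linarith, hy1.le⟩, semi_sq ⟨hI.1.le, hI.2.le⟩, mul_pow y a]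
  calc (1 - y ^ 2) ^ C.K.p ≤ (R * (1 - y ^ 2 * a ^ 2)) ^ C.K.p :=
        pow_le_pow_left₀ (by nlinarith) hr _
    _ = R ^ C.K.p * (1 - y ^ 2 * a ^ 2) ^ C.K.p := mul_pow _ _ _
    _ ≤ _ := mul_le_mul_of_nonneg_right kP (pow_nonneg (by linarith) _)

theorem lerp2_le {w E0 E1 F0 F1 X0 X1 : ℝ} (hw : w ∈ Icc (0 : ℝ) 1) (a : E0 * F0 ≤ X0)
    (b : E1 * F1 ≤ X1) (m : E0 * F1 + E1 * F0 ≤ X0 + X1) :
    ((1 - w) * E0 + w * E1) * ((1 - w) * F0 + w * F1) ≤ (1 - w) * X0 + w * X1 := by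
  linear_combination mul_le_mul_of_nonneg_left a (sq_nonneg (1 - w)) +
    mul_le_mul_of_nonneg_left b (sq_nonneg w) +
    mul_le_mul_of_nonneg_left m (mul_nonneg hw.1 (sub_nonneg.2 hw.2))

/-- The point of a certificate on a leaf. -/
structure At (C : Cell) (P : WPiece) (L : Leaf) (y t r w : ℝ) : Prop where
  hy : y ∈ Ioo (0 : ℝ) 1
  ht : t ∈ Ioo (0 : ℝ) 1
  hr : 0 < r
  hyP : y ∈ Ico ((P.base.Y0 : ℝ) / C.Q) ((P.base.Y1 : ℝ) / C.Q)
  pt : Pt C P.base (y ^ 2) w (r - 1) (t / y - 1)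
  hcb : t / y - 1 ≤ (P.cb : ℝ) / C.K.U
  hridge : ∃ lam : ℝ, semi t ≤ lam * semi y * r ∧ lam ^ C.K.p ≤ 1 + lin2 C.K.U w C.e0.eps C.e1.eps
  hlo : (L.sl : ℝ) / C.K.U ≤ (r ^ C.K.p)⁻¹ - 1
  hhi : (r ^ C.K.p)⁻¹ - 1 ≤ ((L.sl : ℝ) + L.H) / C.K.U
  hdh : (L.dh : ℝ) / C.K.U ≤ r - 1

variable {WP : WPiece} {L : Leaf} {y t r w : ℝ}

theorem line_sound (hp : PieceBasic C WP.base) (m : Msk) (h : lineTest C WP (ctx C m WP.base) L = true)
    (ha : At C WP L y t r w) :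
    (r ^ C.K.p)⁻¹ - 1 - (L.sl : ℝ) / C.K.U ≤
      lin2 C.K.U w L.ln.A0 L.ln.A1 + (L.ln.B : ℝ) / C.K.U * (t / y - 1) := by
  obtain ⟨hy, ht, hr, hyP, hpt, hcb, ⟨lam, hridge, hlam⟩, hlo, hhi, -⟩ := ha
  obtain ⟨-, eZ0, eZ1, eD, -, -⟩ := ctx_fields C m WP.base
  simp only [lineTest, eZ0, eZ1, eD, Bool.and_eq_true, Bool.or_eq_true, decide_eq_true_eq] at h
  obtain ⟨⟨⟨⟨⟨⟨⟨⟨⟨⟨⟨⟨⟨⟨⟨hE0, hE1⟩, na0⟩, na1⟩, nb0⟩, nb1⟩, hlow⟩, ha0⟩, ha1⟩, a00⟩, a11⟩, a01⟩, b00⟩, b11⟩, b01⟩, htop⟩ := h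
  have hU' : (0 : ℝ) < C.K.U := by exact_mod_cast hp.hU
  have hQ' : (0 : ℝ) < C.Q := by exact_mod_cast hp.hQ
  have hw := Ico_subset_Icc_self hpt.hw
  have hw1 : 0 ≤ 1 - w := sub_nonneg.2 hw.2
  set U := (C.K.U : ℝ) with hUd
  set τ := t / y - 1 with hτd
  set n := L.ln
  set A := lin2 C.K.U w n.A0 n.A1 with hAd
  set Bv := (n.B : ℝ) / U with hBd
  set ua := lin2 C.K.U w n.a0.u n.a1.u with huad
  set ub := lin2 C.K.U w n.b0.u n.b1.u with hubd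
  have el : ∀ a b : ℤ, lin2 C.K.U w a b = (1 - w) * ((a : ℝ) / U) + w * ((b : ℝ) / U) :=
    fun a b => by simp only [lin2, hUd]; ring
  have hlowτ : ua ≤ τ := by
    have hs : 0 ≤ 1 - y ^ 2 := by linarith [hpt.hz1]
    cases hb : WP.base.back
    · simp only [hb, Bool.false_eq_true, if_false, Bool.and_eq_true, decide_eq_true_eq] at hlow
      have k : ∀ u : ℤ, u ≤ -C.K.U → (u : ℝ) / U ≤ -1 := fun u h => by
        rw [div_le_iff₀ hU', neg_one_mul]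
        have := (Int.cast_le (R := ℝ)).2 h
        push_cast at this; linarith
      refine le_trans ?_ hpt.hτ.le
      rw [huad, el]
      linear_combination mul_le_mul_of_nonneg_left (k _ hlow.1) hw1 +
        mul_le_mul_of_nonneg_left (k _ hlow.2) hw.1
    · simp only [hb, if_true, Bool.and_eq_true, decide_eq_true_eq] at hlow
      refine le_trans ?_ (hpt.hback hb)
      obtain ⟨⟨⟨p0, p1⟩, l0⟩, l1⟩ := hlow
      have q0 := (Int.cast_le (R := ℝ)).2 l0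
      have q1 := (Int.cast_le (R := ℝ)).2 l1
      push_cast at q0 q1
      have hz0 : ((WP.base.Y0 : ℝ) / C.Q) ^ 2 ≤ y ^ 2 := pow_le_pow_left₀
        (div_nonneg (by exact_mod_cast hp.hY0) hQ'.le) hyP.1 2
      have k : ∀ u al : ℤ, (u : ℝ) * ((C.Q : ℝ) * C.Q) ≤
          -(al : ℝ) * ((C.Q : ℝ) * C.Q - WP.base.Y0 * WP.base.Y0) →
          (u : ℝ) / U ≤ -((al : ℝ) / U) * (1 - ((WP.base.Y0 : ℝ) / C.Q) ^ 2) := fun u al q => by
        have k := div_le_div_of_nonneg_right q (show (0 : ℝ) ≤ U * ((C.Q : ℝ) * C.Q) by positivity)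
        refine le_of_eq_of_le ?_ (k.trans_eq ?_) <;> (field_simp; try ring)
      have hal : 0 ≤ lin2 C.K.U w WP.base.al0 WP.base.al1 := by
        rw [el]
        exact add_nonneg (mul_nonneg hw1 (div_nonneg (by exact_mod_cast p0) hU'.le))
          (mul_nonneg hw.1 (div_nonneg (by exact_mod_cast p1) hU'.le))
      refine le_trans (le_trans (le_of_eq (by rw [huad, el])) (add_le_add
        (mul_le_mul_of_nonneg_left (k _ _ q0) hw1) (mul_le_mul_of_nonneg_left (k _ _ q1) hw.1))) ?_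
      rw [el] at hal ⊢
      linear_combination mul_le_mul_of_nonneg_left hz0 hal
  rcases le_or_gt τ ub with hτb | hτb
  · obtain ⟨Ia0, Fa0, Pa0⟩ := node_sound hp.hU hp.hQ hp.hY0 na0 hyP hy.2
    obtain ⟨Ia1, Fa1, Pa1⟩ := node_sound hp.hU hp.hQ hp.hY0 na1 hyP hy.2
    obtain ⟨Ib0, Fb0, Pb0⟩ := node_sound hp.hU hp.hQ hp.hY0 nb0 hyP hy.2
    obtain ⟨Ib1, Fb1, Pb1⟩ := node_sound hp.hU hp.hQ hp.hY0 nb1 hyP hy.2
    have Pa := ratio_chord hw Ia0 Ia1 Pa0 Pa1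
    have Pb := ratio_chord hw Ib0 Ib1 Pb0 Pb1
    rw [show (1 - w) * ((n.a0.u : ℝ) / U) + w * ((n.a1.u : ℝ) / U) = ua by rw [huad, el]] at Pa
    rw [show (1 - w) * ((n.b0.u : ℝ) / U) + w * ((n.b1.u : ℝ) / U) = ub by rw [hubd, el]] at Pb
    have hIn : ∀ {u0 u1 : ℝ}, y * (1 + u0) ∈ Ioo (-1 : ℝ) 1 → y * (1 + u1) ∈ Ioo (-1 : ℝ) 1 →
        y * (1 + ((1 - w) * u0 + w * u1)) ∈ Ioo (-1 : ℝ) 1 := fun {u0 u1} a b => by
      have := (convex_Ioo (-1 : ℝ) 1) a b hw1 hw.1 (by ring)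
      simp only [smul_eq_mul] at this
      convert this using 1; ring
    have Ia : y * (1 + ua) ∈ Ioo (-1 : ℝ) 1 := by rw [huad, el]; exact hIn Ia0 Ia1
    have Ib : y * (1 + ub) ∈ Ioo (-1 : ℝ) 1 := by rw [hubd, el]; exact hIn Ib0 Ib1
    obtain ⟨μ, hμ, hτμ⟩ : ∃ μ ∈ Icc (0 : ℝ) 1, τ = (1 - μ) * ua + μ * ub := by
      rcases eq_or_lt_of_le (hlowτ.trans hτb) with he | hlt
      · exact ⟨0, by simp, by linarith⟩
      · exact ⟨(τ - ua) / (ub - ua), ⟨div_nonneg (by linarith) (by linarith),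
          (div_le_one (by linarith)).2 (by linarith)⟩, by field_simp [(sub_pos.2 hlt).ne']; ring⟩
    have Pt' := ratio_chord hμ Ia Ib Pa Pb
    rw [← hτμ, show 1 + τ = t / y by rw [hτd]; ring, mul_div_cancel₀ _ hy.1.ne'] at Pt'
    set E := 1 + lin2 C.K.U w C.e0.eps C.e1.eps with hEd
    have hwr := ridge_w hy ht hr hridge hlam Pt'
    have eE : E = (1 - w) * (((C.K.U : ℤ) + C.e0.eps : ℝ) / U) + w * (((C.K.U : ℤ) + C.e1.eps : ℝ) / U) := by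
      rw [hEd, el, ← hUd, add_div, add_div, div_self hU'.ne']; ring
    have cv : ∀ (e F A0 u : ℤ), e * F ≤ (C.K.U + L.sl + A0) * C.K.U + n.B * u →
        (e : ℝ) / U * ((F : ℝ) / U) ≤ 1 + (L.sl : ℝ) / U + (A0 : ℝ) / U + Bv * ((u : ℝ) / U) := by
      intro e F A0 u q
      have q' := (Int.cast_le (R := ℝ)).2 q
      push_cast at q'
      have k := div_le_div_of_nonneg_right q' (show (0 : ℝ) ≤ U * U by positivity)
      refine le_of_eq_of_le ?_ (k.trans_eq ?_) <;> ((try simp only [hBd]); field_simp; try ring)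
    have cv2 : ∀ (F G u v : ℤ), (C.K.U + C.e0.eps) * G + (C.K.U + C.e1.eps) * F ≤
          ((C.K.U + L.sl + n.A0) * C.K.U + n.B * u) + ((C.K.U + L.sl + n.A1) * C.K.U + n.B * v) →
        ((C.K.U + C.e0.eps : ℤ) : ℝ) / U * ((G : ℝ) / U) + ((C.K.U + C.e1.eps : ℤ) : ℝ) / U * ((F : ℝ) / U) ≤
          (1 + (L.sl : ℝ) / U + (n.A0 : ℝ) / U + Bv * ((u : ℝ) / U)) +
          (1 + (L.sl : ℝ) / U + (n.A1 : ℝ) / U + Bv * ((v : ℝ) / U)) := by
      intro F G u v q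
      have q' := (Int.cast_le (R := ℝ)).2 q
      push_cast at q'
      have k := div_le_div_of_nonneg_right q' (show (0 : ℝ) ≤ U * U by positivity)
      refine le_of_eq_of_le ?_ (k.trans_eq ?_) <;> ((try simp only [hBd]); push_cast; field_simp; try ring)
    have La := lerp2_le hw (cv _ _ _ _ a00) (cv _ _ _ _ a11) (cv2 _ _ _ _ a01)
    have Lb := lerp2_le hw (cv _ _ _ _ b00) (cv _ _ _ _ b11) (cv2 _ _ _ _ b01)
    have h1 := add_le_add (mul_le_mul_of_nonneg_left La (sub_nonneg.2 hμ.2))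
      (mul_le_mul_of_nonneg_left Lb hμ.1)
    rw [hτμ, hAd, huad, hubd, el, el, el]
    push_cast at h1 eE
    linear_combination hwr + h1 + (((1 - μ) * ((1 - w) * ((n.a0.F : ℝ) / U) + w * ((n.a1.F : ℝ) / U)) +
      μ * ((1 - w) * ((n.b0.F : ℝ) / U) + w * ((n.b1.F : ℝ) / U)))) * eE
  · rcases htop with (⟨k0, k1⟩ | ⟨k0, k1⟩) | ⟨⟨hB, k0⟩, k1⟩
    · exfalso
      refine absurd hpt.hbb (not_le.2 (lt_of_le_of_lt ?_ hτb))
      rw [hubd, el, el]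
      have a : (WP.base.bb0 : ℝ) / U ≤ (n.b0.u : ℝ) / U := by gcongr
      have b : (WP.base.bb1 : ℝ) / U ≤ (n.b1.u : ℝ) / U := by gcongr
      linear_combination mul_le_mul_of_nonneg_left a hw1 + mul_le_mul_of_nonneg_left b hw.1
    · exfalso
      refine absurd hcb (not_le.2 (lt_of_le_of_lt ?_ hτb))
      rw [hubd, el]
      have a : (WP.cb : ℝ) / U ≤ (n.b0.u : ℝ) / U := by gcongr
      have b : (WP.cb : ℝ) / U ≤ (n.b1.u : ℝ) / U := by gcongr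
      linear_combination mul_le_mul_of_nonneg_left a hw1 + mul_le_mul_of_nonneg_left b hw.1
    · have hB' : 0 ≤ Bv := div_nonneg (by exact_mod_cast hB) hU'.le
      have k : ∀ A0 u : ℤ, L.H * C.K.U ≤ A0 * C.K.U + n.B * u →
          (L.H : ℝ) / U ≤ (A0 : ℝ) / U + Bv * ((u : ℝ) / U) := fun A0 u q => by
        have q' := (Int.cast_le (R := ℝ)).2 q
        push_cast at q'
        have k := div_le_div_of_nonneg_right q' (show (0 : ℝ) ≤ U * U by positivity)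
        refine le_of_eq_of_le ?_ (k.trans_eq ?_) <;> ((try simp only [hBd]); field_simp; try ring)
      have h1 := add_le_add (mul_le_mul_of_nonneg_left (k _ _ k0) hw1)
        (mul_le_mul_of_nonneg_left (k _ _ k1) hw.1)
      have h2 := mul_le_mul_of_nonneg_left hτb.le hB'
      rw [hubd, el] at h2
      rw [hAd, el]
      linear_combination hhi + h1 + h2

end Vale.Agent.P237.All.Finite.W
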