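import Vale.Agent.P237.All.Finite.W.Forms

/-!
P237, finitely many dimensions, `β = 1`: a passed leaf bounds the bracket at its points.
-/

noncomputable section

open Real Set

namespace Vale.Agent.P237.All.Finite.W

open Transport Transport.Finite

variable {C : Cell} {P : WPiece} {L : Leaf} {y t r w : ℝ}

theorem quad_sound {p : ℕ} (hp : 0 < p) {U c sl dh d0 : ℤ} {k : Quad} (hU : 0 < U)
    (h : quadTest p U c sl dh d0 k = true) {δ : ℝ} (hd : 0 < 1 + δ) (hlo : (sl : ℝ) / U ≤ ((1 + δ) ^ p)⁻¹ - 1)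
    (hdh : (dh : ℝ) / U ≤ δ) :
    (k.q0 : ℝ) / U + (k.q1 : ℝ) / U * (((1 + δ) ^ p)⁻¹ - (1 + (sl : ℝ) / U)) +
        (k.q2 : ℝ) / U * (((1 + δ) ^ p)⁻¹ - (1 + (sl : ℝ) / U)) ^ 2 ≤
      (1 + δ) ^ (p + 1) - 1 - ((p : ℝ) + 1) * δ + (1 - (c : ℝ) / U) * (((1 + δ) ^ p)⁻¹ - 1 + p * δ) := by
  simp only [quadTest, Bool.or_eq_true, Bool.and_eq_true, decide_eq_true_eq] at h
  obtain ⟨⟨⟨⟨⟨he, hlt⟩, ha⟩, h1⟩, h0⟩, hmode⟩ := h
  have hU' : (0 : ℝ) < U := by exact_mod_cast hU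
  have he' : (0 : ℝ) < (U : ℝ) + dh := by exact_mod_cast he
  have ha' : (0 : ℝ) < (U : ℝ) + d0 := by exact_mod_cast ha
  have hp' : (0 : ℝ) < p := by exact_mod_cast hp
  have g0 := (Int.cast_le (R := ℝ)).2 h0
  have g1 := (Int.cast_le (R := ℝ)).2 h1
  push_cast at g0 g1
  set a := (U : ℝ) + d0 with had
  set e := (U : ℝ) + dh with hed
  set r0 := a / U with hr0
  set re := e / U with hre
  have hr0p : 0 < r0 := div_pos ha' hU'
  have hrep : 0 < re := div_pos he' hU'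
  have hrr : re < r0 := div_lt_div_of_pos_right (by rw [had, hed]; exact_mod_cast (by linarith : U + dh < U + d0)) hU'
  refine quad_le_F hp (r0 := r0) (re := re) (w0 := (r0 ^ p)⁻¹) (we := (re ^ p)⁻¹)
    (d1 := (-((p : ℝ) + 1) * r0 ^ (2 * p + 1) + (1 - (c : ℝ) / U) * p + (1 + (c : ℝ) / U * p) * r0 ^ (p + 1)) / p)
    (K := (k.q2 : ℝ) / U) hr0p hrep (mul_inv_cancel₀ (pow_pos hr0p p).ne')
    (mul_inv_cancel₀ (pow_pos hrep p).ne')
    (inv_strictAnti₀ (pow_pos hrep p) (pow_lt_pow_left₀ hrr hrep.le hp.ne')) 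
    (mul_div_cancel₀ _ hp'.ne') le_rfl ?_ ?_ ?_ hd (by linarith) ?_
  · have k := div_le_div_of_nonneg_right g1
      (show (0 : ℝ) ≤ (p : ℝ) * ((U : ℝ) ^ p * (U : ℝ) ^ p * U) * U * a ^ p by positivity)
    refine le_of_eq_of_le ?_ (k.trans_eq ?_) <;>
      ((try simp only [hr0, div_pow, inv_div, pow_succ, two_mul, pow_add]); field_simp; try ring)
  · have k := div_le_div_of_nonneg_right g0
      (show (0 : ℝ) ≤ (p : ℝ) * ((U : ℝ) ^ p * (U : ℝ) ^ p * U * U) * U * (a ^ p * a ^ p) by positivity)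
    refine le_of_eq_of_le ?_ (k.trans_eq ?_) <;>
      ((try simp only [hr0, div_pow, inv_div, pow_succ, two_mul, pow_add]); field_simp; try ring)
  · rcases hmode with ⟨hcv, hend⟩ | ⟨⟨hrs, hcs⟩, hk⟩
    · have g2 := (Int.cast_le (R := ℝ)).2 hcv
      have g3 := (Int.cast_le (R := ℝ)).2 hend
      push_cast at g2 g3
      refine Or.inl ⟨?_, ?_⟩
      · have k := div_le_div_of_nonneg_right g2 (show (0 : ℝ) ≤ (U : ℝ) * e ^ p by positivity)
        refine le_of_eq_of_le ?_ (k.trans_eq ?_) <;>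
          ((try simp only [hre, div_pow, inv_div]); field_simp; try ring)
      · have k := div_le_div_of_nonneg_right g3
          (show (0 : ℝ) ≤ (p : ℝ) * ((U : ℝ) ^ p * (U : ℝ) ^ p * U * U) * U *
            (a ^ p * a ^ p) * (e ^ p * e ^ p) by positivity)
        refine le_of_eq_of_le ?_ (k.trans_eq ?_) <;>
          ((try simp only [hr0, hre, div_pow, inv_div, pow_succ, two_mul, pow_add]); field_simp; try ring)
    · have g2 := (Int.cast_le (R := ℝ)).2 hcs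
      have g3 := (Int.cast_le (R := ℝ)).2 hk
      push_cast at g2 g3
      have hrs' : (0 : ℝ) < k.rs := by exact_mod_cast hrs
      refine Or.inr ⟨(k.rs : ℝ) / U, div_pos hrs' hU', ?_, ?_⟩
      · have k := div_le_div_of_nonneg_right g2 (show (0 : ℝ) ≤ (U : ℝ) ^ p * U by positivity)
        refine le_of_eq_of_le ?_ (k.trans_eq ?_) <;> ((try simp only [div_pow]); field_simp; try ring)
      · have k := div_le_div_of_nonneg_right g3
          (show (0 : ℝ) ≤ (U : ℝ) ^ p * (U : ℝ) ^ p * (U : ℝ) ^ p * U by positivity)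
        refine le_of_eq_of_le ?_ (k.trans_eq ?_) <;>
          ((try simp only [div_pow, pow_succ, show 3 * p = p + p + p by omega, pow_add]); field_simp; try ring)
  · refine inv_anti₀ (pow_pos hrep p) (pow_le_pow_left₀ hrep.le ?_ p)
    rw [hre, hed, add_div, div_self hU'.ne']
    linarith

/-- Six packed coefficients whose quadratic at a point is at least `v`. -/
def SixAt (B : ℕ) (E : Six) (X W x τ v : ℝ) : Prop :=
  ∃ f0 f1 f2 f3 f4 f5 : ℝ → ℝ → ℝ, Rep B stride 2 E.e00 f0 ∧ Rep B stride 2 E.e01 f1 ∧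
    Rep B stride 2 E.e02 f2 ∧ Rep B stride 2 E.e11 f3 ∧ Rep B stride 2 E.e12 f4 ∧
    Rep B stride 2 E.e22 f5 ∧
    v ≤ f0 X W + f1 X W * x + f2 X W * τ + f3 X W * x ^ 2 + f4 X W * (x * τ) + f5 X W * τ ^ 2

/-- A packed form that is nonnegative at a point. -/
def FormAt (B : ℕ) (f : LF) (d : ℕ) (X W x τ : ℝ) : Prop :=
  ∃ c cx ct : ℝ → ℝ → ℝ, Rep B stride d f.c c ∧ Rep B stride d f.x cx ∧ Rep B stride d f.t ct ∧
    0 ≤ c X W + cx X W * x + ct X W * τ

/-- A packed multiplier that is nonnegative at a point. -/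
def MuAt (B : ℕ) (q : PK) (d : ℕ) (X W : ℝ) : Prop :=
  ∃ f : ℝ → ℝ → ℝ, Rep B stride d q f ∧ 0 ≤ f X W

variable {B : ℕ} {X W x τ v : ℝ}

theorem prodAcc_at {mu : PK} {f g : LF} {E : Six} {i j n : ℕ} (hn : n + i + j ≤ 2)
    (hm : MuAt B mu n X W) (hf : FormAt B f i X W x τ) (hg : FormAt B g j X W x τ)
    (hE : SixAt B E X W x τ v) : SixAt B (prodAcc mu f g E) X W x τ v := by
  obtain ⟨m, rm, m0⟩ := hm
  obtain ⟨a, ax, at', ra, rax, rat, a0⟩ := hf
  obtain ⟨b, bx, bt, rb, rbx, rbt, b0⟩ := hg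
  obtain ⟨f0, f1, f2, f3, f4, f5, r0, r1, r2, r3, r4, r5, hv⟩ := hE
  refine ⟨_, _, _, _, _, _, (r0.add (rm.mul (ra.mul rb))).mono (by omega),
    (r1.add (rm.mul ((ra.mul rbx).add (rax.mul rb)))).mono (by omega),
    (r2.add (rm.mul ((ra.mul rbt).add (rat.mul rb)))).mono (by omega),
    (r3.add (rm.mul (rax.mul rbx))).mono (by omega),
    (r4.add (rm.mul ((rax.mul rbt).add (rat.mul rbx)))).mono (by omega),
    (r5.add (rm.mul (rat.mul rbt))).mono (by omega), ?_⟩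
  linear_combination hv + mul_nonneg m0 (mul_nonneg a0 b0)

theorem muP_at {U QQ : ℤ} {G' : PK} {g : ℝ → ℝ → ℝ} (hG : Rep B stride 0 G' g) (hg : 0 ≤ g X W)
    (hQ : 0 ≤ QQ) (hX : 0 ≤ X) (hW : 0 ≤ W) {deg : ℕ} {m : Mu}
    (h : 0 ≤ m.a0 ∧ 0 ≤ m.a1 ∧ 0 ≤ m.a2 ∧ 0 ≤ m.b0 ∧ 0 ≤ m.b1 ∧ 0 ≤ m.b2) :
    MuAt B (muP B U QQ G' deg m) (2 - deg) X W := by
  have hw : ∀ a b c : ℤ, 0 ≤ a → 0 ≤ b → 0 ≤ c → MuAt B (muW B deg a b c) (2 - deg) X W := by
    intro a b c ha hb hc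
    have a' : (0 : ℝ) ≤ a := by exact_mod_cast ha
    have b' : (0 : ℝ) ≤ b := by exact_mod_cast hb
    have c' : (0 : ℝ) ≤ c := by exact_mod_cast hc
    unfold muW
    split_ifs with h0 h1
    · exact ⟨_, ((Rep.const a).add ((Rep.linW 0 1).mul (Rep.linW b c))).mono (by omega), by
        push_cast; positivity⟩
    · exact ⟨_, (Rep.linW a b).mono (by omega), by positivity⟩
    · exact ⟨_, (Rep.const a).mono (by omega), a'⟩
  obtain ⟨ha0, ha1, ha2, hb0, hb1, hb2⟩ := h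
  obtain ⟨fa, ra, na⟩ := hw _ _ _ ha0 ha1 ha2
  obtain ⟨fb, rb, nb⟩ := hw _ _ _ hb0 hb1 hb2
  have hQ' : (0 : ℝ) ≤ QQ := by exact_mod_cast hQ
  refine ⟨_, ((hG.mul (((Rep.lin QQ 0).mul ra).add ((Rep.lin 0 QQ).mul rb))).smul (U * U)).mono
    (by omega), ?_⟩
  push_cast
  refine mul_nonneg (mul_self_nonneg _) (mul_nonneg hg (add_nonneg (mul_nonneg ?_ na) (mul_nonneg ?_ nb)))
    <;> simp <;> positivity

theorem oneAcc_at {U QQ : ℤ} {G : Frame} {G' : PK} {m : Mu} {E : Six} {N : ℕ} {d z : ℝ → ℝ}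
    (hG : G.Sem B stride N d z) (hm : MuAt B (muP B U QQ G' 0 m) 2 X W) (hd : 0 ≤ d X)
    (h1 : 0 ≤ 1 - z X - 2 * z X * τ - z X * τ ^ 2) (hE : SixAt B E X W x τ v) :
    SixAt B (oneAcc B U QQ G G' m E) X W x τ v := by
  obtain ⟨fm, rm, m0⟩ := hm
  obtain ⟨f0, f1, f2, f3, f4, f5, r0, r1, r2, r3, r4, r5, hv⟩ := hE
  simp only [oneAcc, PK.strict_eq]
  refine ⟨_, _, _, _, _, _, (r0.add (rm.mul ((hG.hS.mul hG.hD).smul _))).mono (by omega), r1,
    (r2.add (rm.mul ((hG.hZ.mul hG.hD).smul _))).mono (by omega), r3, r4,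
    (r5.add (rm.mul ((hG.hZ.mul hG.hD).smul _))).mono (by omega), ?_⟩
  push_cast
  linear_combination hv + mul_nonneg (mul_nonneg m0 (mul_self_nonneg (U : ℝ)))
    (mul_nonneg (mul_self_nonneg (d X)) h1)

theorem musAcc_at {U QQ : ℤ} {back : Bool} {G : Frame} {G' : PK} {I : IPar} {L : Leaf} {E : Six}
    {line cap : Bool} (hf : ∀ i : Fm, (i = .line → line = true) → (i = .cap → cap = true) →
      FormAt B (i.lf B U QQ back G I L) i.deg X W x τ)
    (hm : ∀ (deg : ℕ) (m : Mu), (0 ≤ m.a0 ∧ 0 ≤ m.a1 ∧ 0 ≤ m.a2 ∧ 0 ≤ m.b0 ∧ 0 ≤ m.b1 ∧ 0 ≤ m.b2) →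
      MuAt B (muP B U QQ G' deg m) (2 - deg) X W)
    (hE : SixAt B E X W x τ v) : ∀ l : List Mu, musTest line cap l = true →
      SixAt B (musAcc B U QQ back G G' I L E l) X W x τ v
  | [], _ => hE
  | m :: l, h => by
    simp only [musTest, Bool.and_eq_true, Bool.or_eq_true, decide_eq_true_eq] at h
    obtain ⟨⟨⟨⟨⟨⟨⟨⟨a0, a1⟩, a2⟩, b0⟩, b1⟩, b2⟩, hl⟩, hc⟩, ht⟩ := h
    simp only [musAcc, Six.strict_eq, PK.strict_eq]
    have hd : ∀ i : Fm, i.deg ≤ 1 := fun i => by cases i <;> simp [Fm.deg]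
    refine prodAcc_at (n := 2 - (m.i.deg + m.j.deg)) (by have := hd m.i; have := hd m.j; omega)
      (hm _ m ⟨a0, a1, a2, b0, b1, b2⟩) (hf _ ?_ ?_) (hf _ ?_ ?_) (musAcc_at hf hm hE l ht)
    all_goals intro e; first
      | exact hl.resolve_left (fun k => k.1 e)
      | exact hl.resolve_left (fun k => k.2 e)
      | exact hc.resolve_left (fun k => k.1 e)
      | exact hc.resolve_left (fun k => k.2 e)

theorem coord (hp : PieceBasic C P.base) (hz : y ^ 2 ∈ Ico (zq C P.base.Y0) (zq C P.base.Y1)) :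
    let X := (y ^ 2 - zq C P.base.Y0) / (zq C P.base.Y1 - y ^ 2)
    0 ≤ X ∧ zX C P.base X = y ^ 2 := by
  intro X
  have hX : 0 ≤ X := div_nonneg (sub_nonneg.2 hz.1) (sub_nonneg.2 hz.2.le)
  refine ⟨hX, ?_⟩
  have hQ : (C.Q : ℝ) ≠ 0 := by exact_mod_cast hp.hQ.ne'
  have hX1 : 1 + X ≠ 0 := by positivity
  rw [zX, dX, div_eq_iff (by positivity)]
  have : (y ^ 2 - zq C P.base.Y0) = X * (zq C P.base.Y1 - y ^ 2) := (div_mul_cancel₀ _ (sub_pos.2 hz.2).ne').symm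
  simp only [zq] at this
  field_simp at this
  linarith [this]

theorem form_at (hp : PieceBasic C P.base) (m : Msk) (ha : At C P L y t r w) {X W : ℝ} (hX : 0 ≤ X)
    (hW : 0 ≤ W) (eX : zX C P.base X = y ^ 2) (eW : W / (1 + W) = w) (i : Fm)
    (hl : i = .line → lineTest C P (ctx C m P.base) L = true)
    (hc : i = .cap → capOk C.K.U (ctx C m P.base) L = true) :
    FormAt C.B (i.lf C.B C.K.U (C.Q * C.Q) P.base.back (ctx C m P.base).G (ctx C m P.base).I L) i.deg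
      X W ((r ^ C.K.p)⁻¹ - 1 - (L.sl : ℝ) / C.K.U) (t / y - 1) := by
  obtain ⟨-, eZ0, eZ1, eD, eG, eI⟩ := ctx_fields C m P.base
  rw [eG, eI]
  obtain ⟨hZ, hD, hS, -⟩ := frame_sem hp
  have hI := par_sem hp Aux.zero
  have ho : Rep C.B stride 1 (parOf C P.base).o fun X W => (C.K.U : ℝ) * (parW C P.base Aux.zero X W).o :=
    hI.ho
  have hpt := ha.pt
  have hU' : (0 : ℝ) < C.K.U := by exact_mod_cast hp.hU
  have hd := dX_pos hp hX
  have hW1 : (0 : ℝ) < 1 + W := by linarith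
  set τ := t / y - 1 with hτ
  set x := (r ^ C.K.p)⁻¹ - 1 - (L.sl : ℝ) / C.K.U with hx
  have hx0 : 0 ≤ x := by have := ha.hlo; linarith
  have hc0 : 0 ≤ (C.K.U : ℝ) * dX C X := by positivity
  cases i with
  | one =>
    refine ⟨_, _, _, hD.smul _, Rep.const 0, Rep.const 0, ?_⟩
    push_cast; linarith [mul_nonneg hU'.le hd.le]
  | x =>
    refine ⟨_, _, _, Rep.const 0, hD.smul _, Rep.const 0, ?_⟩
    push_cast; linarith [mul_nonneg hc0 hx0]
  | hx =>
    refine ⟨_, _, _, hD.smul _, hD.smul _, Rep.const 0, ?_⟩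
    have h : 0 ≤ (L.H : ℝ) / C.K.U - x := by
      have := ha.hhi; rw [add_div] at this; linarith
    push_cast
    linear_combination mul_nonneg hc0 h + dX C X * div_mul_cancel₀ (L.H : ℝ) hU'.ne'
  | one2 =>
    refine ⟨_, _, _, hS.smul _, Rep.const 0, hZ.smul _, ?_⟩
    push_cast; rw [eX]
    linear_combination mul_nonneg hc0 hpt.hone + mul_nonneg hc0 (mul_nonneg hpt.hz0 (sq_nonneg τ))
  | ta =>
    cases hb : P.base.back
    · simp only [Fm.lf, Fm.deg, Bool.false_eq_true, if_false]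
      refine ⟨_, _, _, (hD.mul ho).mono le_rfl, (Rep.const 0).mono (by simp), (hD.mul ho).mono le_rfl, ?_⟩
      simp only [parW, parHat, Transport.Finite.Par.smul]
      push_cast
      linear_combination mul_nonneg (mul_nonneg hc0 hW1.le) (neg_le_iff_add_nonneg'.1 hpt.hτ.le)
    · simp only [Fm.lf, Fm.deg, if_true]
      refine ⟨_, _, _, (hS.mul hI.hal).mono le_rfl, (Rep.const 0).mono (by simp), (hD.mul ho).mono le_rfl, ?_⟩
      simp only [parW, parHat, Transport.Finite.Par.smul, eX, eW]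
      push_cast
      linear_combination mul_le_mul_of_nonneg_left (hpt.hback hb) (mul_nonneg hc0 hW1.le)
  | bt =>
    refine ⟨_, _, _, (hD.mul hI.hbb).mono le_rfl, (Rep.const 0).mono (by simp [Fm.deg]),
      ((hD.mul ho).smul _).mono le_rfl, ?_⟩
    simp only [parW, parHat, Transport.Finite.Par.smul, eX, eW]
    push_cast
    linear_combination mul_le_mul_of_nonneg_left hpt.hbb (mul_nonneg hc0 hW1.le)
  | zb =>
    refine ⟨_, _, _, (hS.mul (lin2_rep _ hp.hU.ne' C.e0.eq C.e1.eq)).mono le_rfl, (Rep.const 0).mono (by simp [Fm.deg]),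
      (hZ.mul ho).mono le_rfl, ?_⟩
    simp only [parW, parHat, Transport.Finite.Par.smul, eX, eW]
    push_cast
    linear_combination mul_nonneg (mul_nonneg hc0 hW1.le) hpt.hzb
  | line =>
    refine ⟨_, _, _, (hD.mul (lin2_rep _ hp.hU.ne' L.ln.A0 L.ln.A1)).mono le_rfl,
      ((hD.mul ho).smul _).mono le_rfl, (hD.mul (lin2_rep _ hp.hU.ne' L.ln.B L.ln.B)).mono le_rfl, ?_⟩
    simp only [parW, parHat, Transport.Finite.Par.smul, eW]
    push_cast
    have h := mul_le_mul_of_nonneg_left (line_sound hp m (hl rfl) ha) (mul_nonneg hc0 hW1.le)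
    have e : lin2 C.K.U w L.ln.B L.ln.B = (L.ln.B : ℝ) / C.K.U := by simp only [lin2]; ring
    rw [e]
    linear_combination h
  | cap =>
    refine ⟨_, _, _, Rep.lin _ _, Rep.const 0, hD.smul _, ?_⟩
    have h := hc rfl
    simp only [capOk, eZ0, eZ1, eD, Bool.and_eq_true, decide_eq_true_eq] at h
    obtain ⟨⟨⟨g0, g1⟩, q0⟩, q1⟩ := h
    have g0' : (0 : ℝ) ≤ (C.K.U : ℝ) + L.e0 := by exact_mod_cast g0
    have g1' : (0 : ℝ) ≤ (C.K.U : ℝ) + L.e1 := by exact_mod_cast g1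
    have q0' := (Int.cast_le (R := ℝ)).2 q0
    have q1' := (Int.cast_le (R := ℝ)).2 q1
    push_cast at q0' q1'
    have hQ : (0 : ℝ) < C.Q := by exact_mod_cast hp.hQ
    have hc1 : (0 : ℝ) < (C.K.U : ℝ) * C.K.U * ((C.Q : ℝ) * C.Q) := by positivity
    set u := X / (1 + X) with hu
    have huI : u ∈ Icc (0 : ℝ) 1 := ⟨by positivity, (div_le_one (by linarith)).2 (by linarith)⟩
    set a := (1 - u) * (((C.K.U : ℝ) + L.e0) / C.K.U) + u * (((C.K.U : ℝ) + L.e1) / C.K.U) with had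
    have k := cap_chord (z0 := zq C P.base.Y0) (z1 := zq C P.base.Y1) (div_nonneg g0' hU'.le)
      (div_nonneg g1' hU'.le)
      (by simp only [zq]; field_simp; linarith) (by simp only [zq]; field_simp; linarith) huI
    have ez : (1 - u) * zq C P.base.Y0 + u * zq C P.base.Y1 = y ^ 2 := by
      rw [← eX, hu]; simp only [zX, dX, zq]
      have : (1 : ℝ) + X ≠ 0 := by positivity
      field_simp; ring
    rw [ez, ← had, ← mul_pow] at k
    have ha0 : 0 ≤ a := add_nonneg (mul_nonneg (sub_nonneg.2 huI.2) (div_nonneg g0' hU'.le))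
      (mul_nonneg huI.1 (div_nonneg g1' hU'.le))
    have h1 : 1 ≤ y * a := (one_le_sq_iff₀ (mul_nonneg ha.hy.1.le ha0)).1 k
    have h2 : t / y ≤ a := by rw [div_le_iff₀ ha.hy.1]; linarith [ha.ht.2]
    have e : ((L.e0 * (C.Q * C.Q) : ℤ) : ℝ) + ((L.e1 * (C.Q * C.Q) : ℤ) : ℝ) * X =
        (C.K.U : ℝ) * dX C X * (a - 1) := by
      rw [had, hu]; simp only [dX]
      have : (1 : ℝ) + X ≠ 0 := by positivity
      push_cast; field_simp; ring
    simp only [hτ]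
    push_cast at e ⊢
    linear_combination mul_le_mul_of_nonneg_left h2 hc0 - e

/-- A passed leaf bounds the bracket. -/
theorem leaf_sound (hp : PieceBasic C P.base) (hB : 1 ≤ C.B) (hp1 : 0 < C.K.p) (hK : C.K.Ok 1)
    (hz : ((C.K.p : ℤ) + 4) * C.e0.g + C.K.k3 ≤ 0 ∧ ((C.K.p : ℤ) + 4) * C.e1.g + C.K.k3 ≤ 0)
    (hca : (P.ca : ℝ) / C.K.U ≤ t / y - 1)
    (hta : cTest C.K (ctx C (Msk.of C.B C.K.N) P.base) P.c0 P.c1 P.ca = true)
    (htb : cTest C.K (ctx C (Msk.of C.B C.K.N) P.base) P.c0 P.c1 P.cb = true)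
    (h : leafTest C P (ctx C (Msk.of C.B C.K.N) P.base)
      (horner (ctx C (Msk.of C.B C.K.N) P.base).G.Z (ctx C (Msk.of C.B C.K.N) P.base).G.D
        (C.e0.F.take (C.K.N - 1))).2 L = true)
    (ha : At C P L y t r w) : Finite.Bounded C P.base 1 (y ^ 2) w (r - 1) (t / y - 1) := by
  set m := Msk.of C.B C.K.N with hm
  have hlo := ha.hlo
  have hdh := ha.hdh
  simp only [leafTest, Six.strict_eq, PK.strict_eq, Bool.and_eq_true, decide_eq_true_eq] at h
  obtain ⟨⟨⟨⟨⟨-, hq0⟩, hq1⟩, hmus⟩, hone⟩, hpd⟩ := h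
  simp only [musTest, Bool.and_eq_true, decide_eq_true_eq, Bool.or_true, and_true] at hone
  obtain ⟨em', -, -, -, eG, eI⟩ := ctx_fields C m P.base
  rw [eG, eI, em'] at hpd
  simp only [hm, Msk.of] at hpd
  have hpt := ha.pt
  set W := w / (1 - w) with hWd
  have h1w : 0 < 1 - w := by linarith [hpt.hw.2]
  have hW : 0 ≤ W := div_nonneg hpt.hw.1 h1w.le
  have eW : W / (1 + W) = w := by rw [hWd]; field_simp; ring
  obtain ⟨hX, eX⟩ := coord hp hpt.hz
  set X := (y ^ 2 - zq C P.base.Y0) / (zq C P.base.Y1 - y ^ 2)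
  have hU' : (0 : ℝ) < C.K.U := by exact_mod_cast hp.hU
  have hd := dX_pos hp hX
  have hG := frame_sem hp
  have hI := par_sem hp Aux.zero
  have hb := base_ctx_sem hp hK m Aux.zero
  obtain ⟨-, -, -, -, -, -, -, e8⟩ := id hK
  set Q := parHat C P.base Aux.zero (y ^ 2) w with hQd
  have eP : parW C P.base Aux.zero X W = Q.smul (1 + W) := by simp only [parW, eX, eW, hQd]
  have hW1 : (0 : ℝ) < 1 + W := by linarith
  set x := (r ^ C.K.p)⁻¹ - 1 - (L.sl : ℝ) / C.K.U with hxd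
  set τ := t / y - 1 with hτd
  set z := y ^ 2 with hzd
  set δ := r - 1 with hδd
  have er : 1 + δ = r := by rw [hδd]; ring
  set cw := lin2 C.K.U w P.c0 P.c1 with hcw
  set R1 := (1 + δ) ^ (C.K.p + 1) - 1 - ((C.K.p : ℝ) + 1) * δ with hR1
  set R2 := ((1 + δ) ^ C.K.p)⁻¹ - 1 + (C.K.p : ℝ) * δ with hR2
  -- the coefficient of `R₂`
  have hc : Transport.Finite.cd C.K.p 1 z Q + (C.K.p : ℝ) * ((1 - z) * Q.f) + 4 * C.K.p * (1 - z) +
      τ * (Transport.Finite.cdt C.K.p 1 z Q + 2 * C.K.p * ((1 - z) * Q.h)) ≤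
      4 * C.K.p * (1 - z) * cw := by
    have key : ∀ tt : ℤ, cTest C.K (ctx C m P.base) P.c0 P.c1 tt = true →
        Transport.Finite.cd C.K.p 1 z Q + (C.K.p : ℝ) * ((1 - z) * Q.f) + 4 * C.K.p * (1 - z) +
          (tt : ℝ) / C.K.U * (Transport.Finite.cdt C.K.p 1 z Q + 2 * C.K.p * ((1 - z) * Q.h)) ≤
        4 * C.K.p * (1 - z) * cw := by
      intro tt ht
      simp only [cTest, PK.strict_eq, em'] at ht
      rw [eG, eI] at ht
      simp only [hm, Msk.of, Msk.pos] at ht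
      have hs := (hG.hS.mul hG.hN).mul (hG.hD.mul hI.ho)
      have hr := (((hs.mul (lin2_rep _ hp.hU.ne' P.c0 P.c1)).smul (4 * (C.K.p : ℤ) * (C.K.U * C.K.U * C.K.U))).sub
        ((((hb.hcd.add (hb.hsf.smul (C.K.p : ℤ))).add ((hs.mul hI.ho).smul (4 * (C.K.p : ℤ) * (C.K.U * C.K.U)))).smul C.K.U).add
          ((hb.hcdt.add (hb.hsh.smul (2 * (C.K.p : ℤ)))).smul tt))).mono (show _ ≤ 2 by simp)
      have := Rep.pos hB (by norm_num [stride]) hr ht hX hW
      simp only [eX, eP, eW] at this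
      push_cast at this
      simp only [Transport.Finite.cd, Transport.Finite.cdt, Transport.Finite.gterm,
        Transport.Finite.Par.smul] at this ⊢
      have hQo : Q.o = 1 := rfl
      simp only [hQo, ← hcw, mul_one] at this ⊢
      have hcpos : 0 < (C.K.U : ℝ) ^ 5 * dX C X ^ (C.K.N + 2) * (1 + W) ^ 2 := by positivity
      rw [pow_add] at this
      refine le_of_mul_le_mul_left ?_ hcpos
      rw [pow_add]
      linear_combination this + (C.K.U : ℝ) ^ 4 * (dX C X ^ C.K.N * dX C X ^ 2) * (1 + W) ^ 2 *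
        (Transport.Finite.k1 C.K.p 1 * z + 2 * ((C.K.p : ℝ) + 4) * z * Q.g) *
        div_mul_cancel₀ (tt : ℝ) hU'.ne'
    have k0 := key _ hta
    have k1 := key _ htb
    rcases le_total 0 (Transport.Finite.cdt C.K.p 1 z Q + 2 * C.K.p * ((1 - z) * Q.h)) with hs | hs
    · linear_combination k1 + mul_le_mul_of_nonneg_right ha.hcb hs
    · linear_combination k0 + mul_le_mul_of_nonpos_right hca hs
  -- the quadratic
  have hq : lin2 C.K.U w L.k0.q0 L.k1.q0 + lin2 C.K.U w L.k0.q1 L.k1.q1 * x +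
      lin2 C.K.U w L.k0.q2 L.k1.q2 * x ^ 2 ≤ R1 + (1 - cw) * R2 := by
    have a := quad_sound hp1 hp.hU hq0 (δ := δ) (by rw [er]; exact ha.hr) (by rw [er]; exact hlo) hdh
    have b := quad_sound hp1 hp.hU hq1 (δ := δ) (by rw [er]; exact ha.hr) (by rw [er]; exact hlo) hdh
    have k := add_le_add (mul_le_mul_of_nonneg_left a h1w.le) (mul_le_mul_of_nonneg_left b hpt.hw.1)
    simp only [lin2, hcw, hR1, hR2, hxd, er] at k ⊢
    linear_combination k
  have hzc : Transport.Finite.zc C.K.p 1 Q ≤ 0 := by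
    have a := (Int.cast_le (R := ℝ)).2 hz.1
    have b := (Int.cast_le (R := ℝ)).2 hz.2
    push_cast at a b
    simp only [Transport.Finite.zc, hQd, parHat, lin2, mul_one]
    have e : ((C.K.p : ℝ) + 4) * (((1 - w) * C.e0.g + w * C.e1.g) / C.K.U) + Transport.Finite.k3 C.K.p 1 =
        ((1 - w) * (((C.K.p : ℝ) + 4) * C.e0.g + C.K.k3) + w * (((C.K.p : ℝ) + 4) * C.e1.g + C.K.k3)) / C.K.U := by
      rw [e8]; field_simp; ring
    rw [e]
    refine div_nonpos_of_nonpos_of_nonneg ?_ hU'.le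
    linear_combination mul_le_mul_of_nonneg_left a h1w.le + mul_le_mul_of_nonneg_left b hpt.hw.1
  obtain ⟨hn1, hn2⟩ := R_nonneg (p := C.K.p) (δ := δ) (by rw [er]; exact ha.hr)
  have hmaj := Transport.Finite.bracket_le_w (p := (C.K.p : ℝ)) (z := z) (P := Q) (δ := δ) (τ := τ)
    (R1 := R1) (R2 := R2) (c := cw) (s := (L.sl : ℝ) / C.K.U + x) (dh := (L.dh : ℝ) / C.K.U)
    (by positivity) hpt.hz0 hpt.hz1.le (by rw [hR2, hxd, er]; ring) hn1 hn2 hc hq hzc hdh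
  -- the packed side
  set K5 := (C.K.U : ℝ) ^ 5 * dX C X ^ (C.K.N + 2) * (1 + W) ^ 2 with hK5
  set v := K5 * ((C.K.p : ℝ) * Transport.Finite.c00 C.K.p z Q -
    ((L.sl : ℝ) / C.K.U + x) * (Transport.Finite.cd C.K.p 1 z Q + Transport.Finite.cdt C.K.p 1 z Q * τ) +
    C.K.p * Transport.Finite.ct C.K.p 1 z Q * τ + C.K.p * Transport.Finite.ctt C.K.p 1 z Q * τ ^ 2 +
    C.K.p * ((L.dh : ℝ) / C.K.U) * z * Transport.Finite.zc C.K.p 1 Q * τ ^ 2 -
    4 * C.K.p * (1 - z) * (lin2 C.K.U w L.k0.q0 L.k1.q0 + lin2 C.K.U w L.k0.q1 L.k1.q1 * x +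
      lin2 C.K.U w L.k0.q2 L.k1.q2 * x ^ 2)) with hv
  have hM : SixAt C.B (major C.K (ctx C m P.base) L) X W x τ v := by
    simp only [major, PK.strict_eq, em']
    rw [eG, eI]
    have hs := (hG.hS.mul hG.hN).mul (hG.hD.mul hI.ho)
    refine ⟨_, _, _, _, _, _,
      (((hb.h00.smul _).sub (hb.hcd.smul _)).sub ((hs.mul (lin2_rep _ hp.hU.ne' _ _)).smul _)).mono (by simp),
      ((hb.hcd.smul _).sub ((hs.mul (lin2_rep _ hp.hU.ne' _ _)).smul _)).mono (by simp),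
      ((hb.hct.smul _).sub (hb.hcdt.smul _)).mono (by simp),
      ((hs.mul (lin2_rep _ hp.hU.ne' _ _)).smul _).mono (by simp),
      hb.hcdt.smul _,
      ((hb.hctt.smul _).add (((hG.hN.mul hG.hD).mul ((hG.hZ.mul ((hI.hg.smul _).add (hI.ho.smul _))).mul
        hI.ho)).smul _)).mono (by simp), ?_⟩
    refine le_of_eq ?_
    simp only [hv, hK5, eX, eP, eW]
    simp only [Transport.Finite.c00, Transport.Finite.cd, Transport.Finite.ct, Transport.Finite.cdt,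
      Transport.Finite.ctt, Transport.Finite.gterm, Transport.Finite.zc, Transport.Finite.Par.smul]
    push_cast
    rw [e8]
    have hQo : Q.o = 1 := rfl
    simp only [hQo]
    field_simp
    ring
  have hG' : Rep C.B stride 0 (horner (frameOf C (P.base.Y0 * P.base.Y0) (P.base.Y1 * P.base.Y1) (C.Q * C.Q)).Z
      (frameOf C (P.base.Y0 * P.base.Y0) (P.base.Y1 * P.base.Y1) (C.Q * C.Q)).D (C.e0.F.take (C.K.N - 1))).2
      fun X _ => dX C X ^ (C.e0.F.take (C.K.N - 1)).length :=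
    (horner_rep (zf := zX C P.base) hG.hZ hG.hD (fun X _ => rfl) _).1
  have hmu : ∀ (deg : ℕ) (mm : Mu), _ → MuAt C.B (muP C.B C.K.U (C.Q * C.Q) _ deg mm) (2 - deg) X W :=
    fun deg mm h => muP_at hG' (pow_nonneg hd.le _) (mul_self_nonneg _) hX hW h
  have hE := musAcc_at (fun i hl hc => eG ▸ eI ▸ form_at hp m ha hX hW eX eW i hl hc) hmu hM L.mus hmus
  have hE2 := oneAcc_at (m := L.one) hG (hmu 0 L.one
    ⟨hone.1.1.1.1.1, hone.1.1.1.1.2, hone.1.1.1.2, hone.1.1.2, hone.1.2, hone.2⟩) hd.le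
    (by rw [eX]; exact hpt.hone) hE
  obtain ⟨f0, f1, f2, f3, f4, f5, r0, r1, r2, r3, r4, r5, hle⟩ := hE2
  have hwr := (w_rep hp m).smul (C.K.p : ℤ)
  have key := pdTest_sound hB (hG.hS) hwr r0 r1 r2 r3 r4 r5 hpd hX hW x τ
  simp only [eX, eW] at key
  push_cast at key
  have hs : 0 ≤ 1 - z := by linarith [hpt.hz1]
  have k2 := mul_le_mul_of_nonneg_left hle (mul_nonneg hd.le hs)
  have k3 := mul_le_mul_of_nonneg_left hmaj (mul_nonneg (mul_nonneg hd.le hs) (by positivity : 0 ≤ K5))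
  have hpp : (0 : ℝ) < C.K.p := by exact_mod_cast hp1
  have fin : dX C X * K5 * (C.K.p : ℝ) * ((1 - z) * Transport.Finite.bracket C.K.p 1 z Q δ τ R1 R2) ≤
      dX C X * K5 * (C.K.p : ℝ) * piAt C P.base z w := by
    rw [hv] at k2
    have e : dX C X ^ (C.K.N + 3) = dX C X * dX C X ^ (C.K.N + 2) := pow_succ' _ _
    rw [e] at key
    simp only [hK5] at k2 k3 ⊢
    linarith
  exact le_of_mul_le_mul_left fin (by positivity)

end Vale.Agent.P237.All.Finite.W
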