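import Vale.Agent.P237.All.Finite.Range
import Vale.Agent.P237.All.Finite.W.Leaf

/-!
P237, finitely many dimensions, `β = 1`: a passed cell cut in `s` gives certificates on its range of `k`.
-/

noncomputable section

open MeasureTheory Set Real intervalIntegral

namespace Vale.Agent.P237.All.Finite.W

open Transport Transport.Finite

variable {C : Cell} {P : WPiece} {y t r w : ℝ}

theorem near_sound (hU : 0 < C.K.U) (hQ : 0 < C.Q) (hy : y ∈ Ioo (0 : ℝ) 1) (hr : 0 < r)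
    (h : Reach C.K.p y r) {rho Y1 : ℤ} (hy1 : y < (Y1 : ℝ) / C.Q) :
    ∀ (l : List Near) (Y : ℤ), nearTest C rho Y1 Y l = true → (Y : ℝ) / C.Q ≤ y →
      (rho : ℝ) / C.K.U ≤ r
  | [], Y, ht, hY => by
    simp only [nearTest, decide_eq_true_eq] at ht
    have h' : (Y1 : ℝ) ≤ Y := by exact_mod_cast ht
    have := div_le_div_of_nonneg_right h' (show (0 : ℝ) ≤ C.Q by exact_mod_cast hQ.le)
    linarith
  | n :: l, Y, ht, hY => by
    simp only [nearTest, Bool.and_eq_true, decide_eq_true_eq] at ht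
    obtain ⟨⟨⟨⟨⟨⟨⟨⟨⟨⟨⟨hY0, hYn⟩, hn⟩, hS0⟩, hS⟩, hv0⟩, hv1⟩, hX0⟩, hX⟩, hm⟩, hρ⟩, hrest⟩ := ht
    rcases le_or_gt ((n.Y : ℝ) / C.Q) y with hc | hc
    · exact near_sound hU hQ hy hr h hy1 l n.Y hrest hc
    have hU' : (0 : ℝ) < C.K.U := by exact_mod_cast hU
    have hQ' : (0 : ℝ) < C.Q := by exact_mod_cast hQ
    refine r_ge_near hy hr h (y0 := (Y : ℝ) / C.Q) (y1 := (n.Y : ℝ) / C.Q) (S0 := (n.S0 : ℝ) / C.K.U)
      (v0 := (n.v0 : ℝ) / C.K.U) (X := (n.X : ℝ) / C.K.U)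
      (div_nonneg (by exact_mod_cast hY0) hQ'.le) hY hc.le
      ((div_le_one hQ').2 (by exact_mod_cast hn)) (div_nonneg (by exact_mod_cast hS0) hU'.le) ?_
      (massQ_le C.K.p).2 (massQ_le C.K.p).1 (massQ_le (C.K.p + 1)).1
      (div_pos (by exact_mod_cast hv0) hU') ((div_le_one hU').2 (by exact_mod_cast hv1)) ?_ ?_
      ((one_le_div hU').2 (by exact_mod_cast hX0)) ?_
    · have q := (Int.cast_le (R := ℝ)).2 hS
      push_cast at q
      have k := div_le_div_of_nonneg_right q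
        (show (0 : ℝ) ≤ (C.K.U : ℝ) * C.K.U * ((C.Q : ℝ) * C.Q) by positivity)
      refine le_of_eq_of_le ?_ (k.trans_eq ?_) <;> (field_simp; try ring)
    · have q := (Rat.cast_le (K := ℝ)).2 hm
      rw [massB_cast] at q
      push_cast at q
      exact q
    · have q := (Rat.cast_le (K := ℝ)).2 hX
      push_cast at q
      exact q
    · have q := (Rat.cast_le (K := ℝ)).2 hρ
      push_cast at q
      exact q

/-- The leaves cover what the bound from `rho` leaves. -/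
theorem chain_sound {p : ℕ} (hp : 0 < p) {U rho : ℤ} (hU : 0 < U) (hr : 0 < r) (hρ : 0 < rho)
    (hge : (rho : ℝ) / U ≤ r) :
    ∀ (l : List Leaf) (s : ℤ), chainTest p U rho s l = true → (s : ℝ) / U ≤ (r ^ p)⁻¹ - 1 →
      ∃ L ∈ l, (L.sl : ℝ) / U ≤ (r ^ p)⁻¹ - 1 ∧ (r ^ p)⁻¹ - 1 ≤ ((L.sl : ℝ) + L.H) / U ∧
        (L.dh : ℝ) / U ≤ r - 1
  | [], _, h, _ => by simp [chainTest] at h
  | [L], s, h, hs => by
    simp only [chainTest, Bool.and_eq_true, decide_eq_true_eq] at h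
    obtain ⟨⟨rfl, hd⟩, hh⟩ := h
    have hU' : (0 : ℝ) < U := by exact_mod_cast hU
    have hρ' : (0 : ℝ) < rho := by exact_mod_cast hρ
    refine ⟨L, by simp, hs, ?_, ?_⟩
    · have k := inv_anti₀ (pow_pos (div_pos hρ' hU') p) (pow_le_pow_left₀ (div_pos hρ' hU').le hge p)
      have q := (Int.cast_le (R := ℝ)).2 hh
      push_cast at q
      have k2 : (((rho : ℝ) / U) ^ p)⁻¹ ≤ 1 + ((L.sl : ℝ) + L.H) / U := by
        have := div_le_div_of_nonneg_right q (show (0 : ℝ) ≤ U * (rho : ℝ) ^ p by positivity)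
        refine le_of_eq_of_le ?_ (this.trans_eq ?_) <;> ((try simp only [div_pow]); field_simp; try ring)
      linarith
    · have q : (U : ℝ) + L.dh ≤ rho := by exact_mod_cast hd
      have k := div_le_div_of_nonneg_right q hU'.le
      rw [add_div, div_self hU'.ne'] at k
      linarith
  | L :: L' :: l, s, h, hs => by
    simp only [chainTest, Bool.and_eq_true, decide_eq_true_eq] at h
    obtain ⟨⟨⟨rfl, hd⟩, hh⟩, hrest⟩ := h
    have hU' : (0 : ℝ) < U := by exact_mod_cast hU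
    rcases le_or_gt ((r ^ p)⁻¹ - 1) (((L.sl : ℝ) + L.H) / U) with hc | hc
    · refine ⟨L, by simp, hs, hc, ?_⟩
      by_contra hn
      push Not at hn
      have hd' : (0 : ℝ) ≤ (U : ℝ) + L.dh := by exact_mod_cast hd
      have h1 : r < ((U : ℝ) + L.dh) / U := by rw [add_div, div_self hU'.ne']; linarith
      have h2 := inv_strictAnti₀ (pow_pos hr p) (pow_lt_pow_left₀ h1 hr.le hp.ne')
      have q := (Int.cast_le (R := ℝ)).2 hh
      push_cast at q
      have hd2 : (0 : ℝ) < (U : ℝ) + L.dh := by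
        have := hr.trans h1
        rwa [lt_div_iff₀ hU', zero_mul] at this
      have k2 : 1 + ((L.sl : ℝ) + L.H) / U ≤ ((((U : ℝ) + L.dh) / U) ^ p)⁻¹ := by
        have := div_le_div_of_nonneg_right q (show (0 : ℝ) ≤ U * ((U : ℝ) + L.dh) ^ p by positivity)
        refine le_of_eq_of_le ?_ (this.trans_eq ?_) <;> ((try simp only [div_pow]); field_simp; try ring)
      linarith
    · obtain ⟨M, hM, hm⟩ := chain_sound hp hU hr hρ hge (L' :: l) (L.sl + L.H) hrest
        (by push_cast; linarith)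
      exact ⟨M, by simp only [List.mem_cons] at hM ⊢; exact Or.inr hM, hm⟩

theorem cut_sound (hp : PieceBasic C P.base) (hB : 1 ≤ C.B) (hp1 : 0 < C.K.p) (hK : C.K.Ok 1)
    (hz : ((C.K.p : ℤ) + 4) * C.e0.g + C.K.k3 ≤ 0 ∧ ((C.K.p : ℤ) + 4) * C.e1.g + C.K.k3 ≤ 0)
    (h : cutTest C (ctx C (Msk.of C.B C.K.N) P.base) P = true) (hy : y ∈ Ioo (0 : ℝ) 1)
    (hyP : y ∈ Ico ((P.base.Y0 : ℝ) / C.Q) ((P.base.Y1 : ℝ) / C.Q)) (ht : t ∈ Ioo (0 : ℝ) 1) (hr : 0 < r)
    (hpt : Pt C P.base (y ^ 2) w (r - 1) (t / y - 1))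
    (hridge : ∃ lam : ℝ, semi t ≤ lam * semi y * r ∧ lam ^ C.K.p ≤ 1 + lin2 C.K.U w C.e0.eps C.e1.eps)
    (hreach : Reach C.K.p y r) : Finite.Bounded C P.base 1 (y ^ 2) w (r - 1) (t / y - 1) := by
  simp only [cutTest, PK.strict_eq, Bool.and_eq_true, Bool.or_eq_true, decide_eq_true_eq,
    List.all_eq_true] at h
  obtain ⟨⟨⟨⟨⟨⟨⟨⟨hρ, hnear⟩, hchain⟩, hlow⟩, hb0⟩, hb1⟩, hta⟩, htb⟩, hleaves⟩ := h
  have hU' : (0 : ℝ) < C.K.U := by exact_mod_cast hp.hU
  have hge : (P.rho : ℝ) / C.K.U ≤ r := by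
    rcases hnear with h | h
    · have := hpt.hrho (hρ.trans_le h)
      have h' : (P.rho : ℝ) / C.K.U ≤ (P.base.rho : ℝ) / C.K.U := by gcongr
      linarith
    · exact near_sound hp.hU hp.hQ hy hr hreach hyP.2 P.near P.base.Y0 h hyP.1
  have hcb : t / y - 1 ≤ (P.cb : ℝ) / C.K.U :=
    cap_sound hp.hU hp.hQ hpt (Msk.of C.B C.K.N) hb0 hb1 hpt.hbb
  have hca : (P.ca : ℝ) / C.K.U ≤ t / y - 1 := by
    cases hb : P.base.back
    · simp only [hb, Bool.false_eq_true, if_false, decide_eq_true_eq] at hlow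
      refine le_trans ?_ hpt.hτ.le
      rw [div_le_iff₀ hU', neg_one_mul]
      have := (Int.cast_le (R := ℝ)).2 hlow
      push_cast at this
      linarith
    · simp only [hb, if_true, Bool.and_eq_true, decide_eq_true_eq] at hlow
      obtain ⟨⟨⟨p0, p1⟩, l0⟩, l1⟩ := hlow
      refine le_trans ?_ (hpt.hback hb)
      obtain ⟨-, eZ0, -, eD, -, -⟩ := ctx_fields C (Msk.of C.B C.K.N) P.base
      rw [eZ0, eD] at l0 l1
      have q0 := (Int.cast_le (R := ℝ)).2 l0
      have q1 := (Int.cast_le (R := ℝ)).2 l1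
      push_cast at q0 q1
      have hQ : (0 : ℝ) < C.Q := by exact_mod_cast hp.hQ
      have hw0 := hpt.hw.1
      have hw1 : 0 ≤ 1 - w := by linarith [hpt.hw.2]
      have k := div_le_div_of_nonneg_right
        (add_le_add (mul_le_mul_of_nonneg_left q0 hw1) (mul_le_mul_of_nonneg_left q1 hw0))
        (show (0 : ℝ) ≤ (C.K.U : ℝ) * ((C.Q : ℝ) * C.Q) by positivity)
      have hal : 0 ≤ lin2 C.K.U w P.base.al0 P.base.al1 := div_nonneg (add_nonneg
        (mul_nonneg hw1 (by exact_mod_cast p0)) (mul_nonneg hw0 (by exact_mod_cast p1))) hU'.le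
      have h2 : (P.ca : ℝ) / C.K.U ≤ -lin2 C.K.U w P.base.al0 P.base.al1 * (1 - zq C P.base.Y0) := by
        refine le_of_eq_of_le ?_ (k.trans_eq ?_) <;> ((try simp only [lin2, zq]); field_simp; try ring)
      linear_combination h2 + mul_le_mul_of_nonneg_left hpt.hz.1 hal
  obtain ⟨L, hL, h1, h2, h3⟩ := chain_sound hp1 hp.hU hr hρ hge P.leaves (-C.K.U) hchain (by
    push_cast
    rw [neg_div, div_self hU'.ne']
    linarith [inv_nonneg.2 (pow_nonneg hr.le C.K.p)])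
  exact leaf_sound hp hB hp1 hK hz hca hta htb (hleaves L hL)
    ⟨hy, ht, hr, hyP, hpt, hcb, hridge, h1, h2, h3⟩

/-- A passed cell gives certificates at every `k` of its range. -/
theorem hasCert_wcell (W : WCell) (hh : wHeadTest W = true)
    (hall : ∀ P ∈ W.wp, wPieceTest W.cell (Msk.of W.C.B W.C.K.N) P = true) {k : ℝ}
    (hk : k ∈ Ico (W.C.kA : ℝ) (W.C.kB : ℝ)) :
    HasCert W.C.K.p (exp (k / ((W.C.K.p : ℝ) + 1)) * (2 * mass (W.C.K.p + 1) semi 1)) := by
  simp only [wHeadTest, headTest, Bool.and_eq_true, decide_eq_true_eq] at hh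
  obtain ⟨⟨⟨⟨⟨⟨⟨⟨⟨⟨⟨⟨⟨⟨hkc, hB⟩, he0⟩, he1⟩, hAB⟩, hP0⟩, hP1⟩, hP2⟩, hcov⟩, hc0⟩, hc1⟩, hc2t⟩, hbeU⟩, hz0⟩, hz1⟩ := hh
  obtain ⟨hp3, hN, hU, hQ, -, hK⟩ := kc_sound hkc
  set C := W.cell with hC
  have ebe : (C.be : ℝ) / C.K.U = 1 := by
    have : C.be = C.K.U := hbeU
    rw [this, div_self (by exact_mod_cast hU.ne')]
  rw [ebe] at hK
  have h0 := endTest_sound hU he0
  have h1 := endTest_sound hU he1
  set p := C.K.p with hp
  have hAB' : (C.kA : ℝ) < C.kB := by exact_mod_cast hAB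
  set w := (k - C.kA) / (C.kB - C.kA) with hwd
  have hw : w ∈ Ico (0 : ℝ) 1 :=
    ⟨div_nonneg (sub_nonneg.2 hk.1) (sub_pos.2 hAB').le,
      (div_lt_one (sub_pos.2 hAB')).2 (by linarith [show k < (C.kB : ℝ) from hk.2])⟩
  have hwI := Ico_subset_Icc_self hw
  have hkw : k = (1 - w) * (C.kA : ℝ) + w * C.kB := by
    have : w * ((C.kB : ℝ) - C.kA) = k - C.kA := div_mul_cancel₀ _ (sub_pos.2 hAB').ne'
    linarith
  obtain ⟨-, hlamk, -, hc2w, hg0, hell0, -⟩ := ends_sound (k := k) hU h0 h1 hwI hkw (le_refl (1 : ℝ))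
    (by rw [one_pow]; exact Real.one_le_exp (div_nonneg (h0.hk.trans hk.1) (by positivity)))
  have hsize : ∀ P ∈ C.pieces, PieceSize C P := fun P hP => by
    obtain ⟨R, hR, rfl⟩ := List.mem_map.1 (show P ∈ W.wp.map WPiece.base from hP)
    have := hall R hR
    simp only [wPieceTest, Bool.and_eq_true] at this
    exact pieceSize_of (pieceF_le this.1)
  obtain ⟨ε, hε, hneg⟩ := budget (w := w) hU hQ (by omega) hwI hsize hc0 hc1 hc2t
  set Fz := fun z : ℝ => polyAt C.K.U w z C.e0.F C.e1.F with hFz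
  set Fd := fun z : ℝ => polyAt C.K.U w z (dlist C.e0.F) (dlist C.e1.F) with hFd
  set Hz := fun z : ℝ => polyAt C.K.U w z C.e0.H C.e1.H with hHz
  set Hd := fun z : ℝ => polyAt C.K.U w z (dlist C.e0.H) (dlist C.e1.H) with hHd
  have hder : ∀ (G Gd : ℝ → ℝ), (∀ z, HasDerivAt G (Gd z) z) → ∀ y : ℝ,
      HasDerivAt (fun y => (1 - y ^ 2) * G (y ^ 2)) (2 * y * ((1 - y ^ 2) * Gd (y ^ 2) - G (y ^ 2))) y := by
    intro G Gd hG y
    refine (((hasDerivAt_pow 2 y).const_sub 1).mul ((hG (y ^ 2)).comp y (hasDerivAt_pow 2 y))).congr_deriv ?_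
    simp only [Function.comp_apply]
    push_cast
    ring
  have hA := hder Fz Fd fun z => polyAt_hasDerivAt _ w z _ _
  have hW := hder Hz Hd fun z => polyAt_hasDerivAt _ w z _ _
  refine ⟨0, lin2 C.K.U w C.e0.g C.e1.g, 1, le_rfl, hg0, zero_le_one, ⟨{
    β := 1
    ell := lin2 C.K.U w C.e0.ell C.e1.ell
    ell_nonneg := hell0
    V := potF p (fun y => (1 - y ^ 2) * Fz (y ^ 2)) (fun y => (1 - y ^ 2) * Hz (y ^ 2))
    Vy := potFY p (fun y => (1 - y ^ 2) * Fz (y ^ 2))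
      (fun y => 2 * y * ((1 - y ^ 2) * Fd (y ^ 2) - Fz (y ^ 2)))
      (fun y => (1 - y ^ 2) * Hz (y ^ 2))
      (fun y => 2 * y * ((1 - y ^ 2) * Hd (y ^ 2) - Hz (y ^ 2)))
    Vt := potFT p (fun y => (1 - y ^ 2) * Fz (y ^ 2)) (fun y => (1 - y ^ 2) * Hz (y ^ 2))
    Pi := piFun C w ε
    chain := fun Z Z' t _ hy hZ => potF_chain _ _ _ _ (fun y _ => hA y) (fun y _ => hW y) Z Z' t hy hZ
    along := fun Z hZ h0 hα h1 => potF_along _ _
      (fun y _ => (hA y).continuousAt.continuousWithinAt)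
      (fun y _ => (hW y).continuousAt.continuousWithinAt) Z hZ h0 hα h1
    V_zero := potF_zero _ _
    V_one := potF_one _ _
    Pi_cont := (piFun_continuous ε).continuousOn
    Pi_neg := hneg
    point := ?_ }⟩⟩
  intro y hy t ht r lam hr hlam hlp hridge hreach hfwd hback _
  have hM := mass_one_pos isProfile_semi (p + 1)
  have hpow : lam ^ (p + 1) ≤ exp (k / ((p : ℝ) + 1)) := le_of_mul_le_mul_right hlp (by positivity)
  obtain ⟨_, hP, hyP⟩ := cover_mem hQ C.pieces 0 hcov y (by simpa using hy.1.le) hy.2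
  obtain ⟨P, hPW, rfl⟩ := List.mem_map.1 (show _ ∈ W.wp.map WPiece.base from hP)
  have hfull := hall P hPW
  simp only [wPieceTest, Ctx.strict_eq, Bool.and_eq_true] at hfull
  obtain ⟨hpt', hrest⟩ := hfull
  have hbasic : PieceBasic C P.base :=
    ⟨hU, hQ, hN, h0.hF, h1.hF, h0.hH, h1.hH, hP0, hP1, hP2, (hsize _ hP).hY0, (hsize _ hP).hY⟩
  have hpt := piece_pt hbasic hp3 h0 h1 (massQ_le p).2 (massQ_le (p + 1)).1
    (massQ_pos (by norm_num) _) (pieceF_le hpt') hw hkw hy hyP ht hr hlam hpow hridge hreach hfwd hback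
  have hb : Finite.Bounded C P.base 1 (y ^ 2) w (r - 1) (t / y - 1) := by
    cases hl : P.leaves with
    | nil =>
      simp only [hl, treeF_eq] at hrest
      have hL : 0 < C.e0.L2 ∧ 0 < C.e1.L2 := by
        have hU' : (0 : ℝ) < C.K.U := by exact_mod_cast hU
        constructor
        · exact_mod_cast (show (0 : ℝ) < C.e0.L2 from
            (div_pos_iff_of_pos_right hU').1 ((exp_pos _).trans_le h0.hL2))
        · exact_mod_cast (show (0 : ℝ) < C.e1.L2 from
            (div_pos_iff_of_pos_right hU').1 ((exp_pos _).trans_le h1.hL2))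
      have hroot : InBox C P.base (rootBox C.K.U P.base) (y ^ 2) w (r - 1) (t / y - 1) := by
        have hU' : (0 : ℝ) < C.K.U := by exact_mod_cast hU
        refine ⟨?_, ?_, ?_, fun h e => by simp [rootBox] at e⟩
        · cases hb : P.base.back
          · simp only [rootBox, hb, Bool.false_eq_true, if_false]
            push_cast
            rw [neg_div, div_self hU'.ne']
            exact hpt.hτ.le
          · simp only [rootBox, hb, if_true]
            exact hpt.hback hb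
        · simpa [rootBox] using hpt.hbb
        · simp only [rootBox]
          push_cast
          rw [neg_div, div_self hU'.ne']
          exact hpt.hδ.le
      exact tree_sound hbasic hB hp3 le_rfl hK hL hpt P.base.tree _ hroot hrest
    | cons a l =>
      simp only [hl] at hrest
      obtain ⟨-, -, heps, -⟩ := ends_sound hU h0 h1 hwI hkw hlam hpow
      exact cut_sound hbasic hB (by omega) hK ⟨hz0, hz1⟩ hrest hy hyP ht hr hpt
        ⟨lam, hridge, by linarith [heps]⟩ hreach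
  refine le_trans ?_ (piFun_ge hU hQ hp3 hwI hε hsize hP hyP)
  refine le_trans (le_of_eq (density_bracket p _ _ lam _ 1 Fz Fd Hz Hd hy hr)) ?_
  set c2 := (exp (k / ((p : ℝ) + 1)) * (2 * mass (p + 1) semi 1) /
    ∫ s in (-1 : ℝ)..1, semi s ^ (p + 1)) ^ (2 / ((p : ℝ) + 2)) with hc2
  have hc2' : 1 + 2 * k / (((p : ℝ) + 1) * ((p : ℝ) + 2)) ≤ c2 := by
    rw [hc2, Transport.integral_even isProfile_semi (p + 1), mul_div_cancel_right₀ _ (by positivity : (2 * mass (p + 1) semi 1) ≠ 0),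
      ← Real.exp_mul]
    refine le_trans (le_of_eq ?_) (Real.add_one_le_exp _)
    field_simp
    ring
  have hS : semi y ^ (p + 1) = semi y ^ (p - 1) * (1 - y ^ 2) := by
    rw [show p + 1 = p - 1 + 2 by omega, pow_add, semi_sq ⟨by linarith [hy.1], hy.2.le⟩]
  rw [hS, mul_assoc]
  refine mul_le_mul_of_nonneg_left ?_ (pow_nonneg (Real.sqrt_nonneg _) _)
  refine le_trans (mul_le_mul_of_nonneg_left ?_ (by linarith [hpt.hz1])) hb
  have hm := bracket_mono (p := (p : ℝ)) (be := 1) (z := y ^ 2) (δ := r - 1) (τ := t / y - 1)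
    (R1 := (1 + (r - 1)) ^ (p + 1) - 1 - ((p : ℝ) + 1) * (r - 1))
    (R2 := ((1 + (r - 1)) ^ p)⁻¹ - 1 + (p : ℝ) * (r - 1))
    (parHat C P.base Aux.zero (y ^ 2) w) rfl hg0 (by linarith) (hc2w.trans hc2')
  refine le_of_eq_of_le ?_ hm
  rw [show (1 : ℝ) + (r - 1) = r by ring]
  rfl

/-- A cell tested in parts of three pieces, each in a theorem of its own. -/
theorem rangeOk_wcell {W : WCell} (n : ℕ) (hn : W.wp.length ≤ 3 * n) (h0 : wHeadTest W = true)
    (h : ∀ i < n, wChunkTest W i = true) {p : ℕ} {a b : ℚ} (hp : W.C.K.p = p) (ha : W.C.kA ≤ a)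
    (hb : b ≤ W.C.kB) (hp1 : 1 ≤ p) : RangeOk p a b := by
  have hall : ∀ P ∈ W.wp, wPieceTest W.cell (Msk.of W.C.B W.C.K.N) P = true := by
    intro P hP
    obtain ⟨j, hj, rfl⟩ := List.mem_iff_getElem.1 hP
    have hi := h (j / 3) (by omega)
    simp only [wChunkTest, Msk.strict_eq, List.all_eq_true] at hi
    refine hi _ (List.mem_iff_getElem.2 ⟨j % 3, ?_, ?_⟩)
    · simp only [List.length_take, List.length_drop]; omega
    · simp only [List.getElem_take, List.getElem_drop]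
      congr 1; omega
  intro k k0 k1
  have a' : (W.C.kA : ℝ) ≤ a := by exact_mod_cast ha
  have b' : (b : ℝ) ≤ W.C.kB := by exact_mod_cast hb
  have hc := hasCert_wcell W h0 hall (k := k) ⟨a'.trans k0, k1.trans_le b'⟩
  rw [hp] at hc
  exact hc.hasBound hp1

end Vale.Agent.P237.All.Finite.W
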